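import Crest.Agent.N207.S.Ga.Jet
import Crest.Agent.N207.S.MP

-- ▼ part N207/S/Ga/Peq
section

/-!
Row 207, S0320, block GAUGE (helper66): the relation `P = η'` is preserved.
-/

set_option autoImplicit false

open Set Filter
open scoped Topology ContDiff

noncomputable section
namespace Crest.Agent.N207.S.Ga

lemma past_of {f : ℝ → ℝ} {d t0 t1 t : ℝ} (h : HasDerivWithinAt f d (Icc t0 t1) t) (h0 : t0 < t)
    (h1 : t ≤ t1) : HasDerivWithinAt f d (Iic t) t :=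
  h.mono_of_mem_nhdsWithin (mem_of_superset (Icc_mem_nhdsLE h0) (Icc_subset_Icc_right h1))

/-- linear maximum principle on `[0,1]` with degenerate ends. -/
theorem lin_nonpos {t0 t1 K : ℝ} {u ut ux uxx Z B C : ℝ → ℝ → ℝ}
    (hc : ContinuousOn (fun p : ℝ × ℝ => u p.1 p.2) (Icc t0 t1 ×ˢ Icc 0 1))
    (ht : ∀ t ∈ Icc t0 t1, ∀ x ∈ Icc (0 : ℝ) 1,
      HasDerivWithinAt (fun s => u s x) (ut t x) (Icc t0 t1) t)
    (hx : ∀ t ∈ Icc t0 t1, ∀ x ∈ Icc (0 : ℝ) 1, HasDerivWithinAt (u t) (ux t x) (Icc 0 1) x)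
    (hxx : ∀ t ∈ Icc t0 t1, ∀ x ∈ Icc (0 : ℝ) 1, HasDerivWithinAt (ux t) (uxx t x) (Icc 0 1) x)
    (he : ∀ t ∈ Icc t0 t1, ∀ x ∈ Icc (0 : ℝ) 1,
      ut t x = Z t x * uxx t x + B t x * ux t x + C t x * u t x)
    (hZ : ∀ t ∈ Icc t0 t1, ∀ x ∈ Icc (0 : ℝ) 1, 0 ≤ Z t x)
    (hC : ∀ t ∈ Icc t0 t1, ∀ x ∈ Icc (0 : ℝ) 1, C t x ≤ K)
    (h0 : ∀ t ∈ Icc t0 t1, Z t 0 = 0 ∧ 0 ≤ B t 0) (h1 : ∀ t ∈ Icc t0 t1, Z t 1 = 0 ∧ B t 1 ≤ 0)
    (hi : ∀ x ∈ Icc (0 : ℝ) 1, u t0 x ≤ 0) :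
    ∀ t ∈ Icc t0 t1, ∀ x ∈ Icc (0 : ℝ) 1, u t x ≤ 0 := by
  intro t htt x hxx'
  have key : ∀ ε : ℝ, 0 < ε → u t x - ε * Real.exp ((K + 1) * t) < 0 := by
    intro ε hε
    have hp : ∀ s : ℝ, 0 < ε * Real.exp ((K + 1) * s) := fun s => by positivity
    have fin : ∀ s ∈ Icc t0 t1, ∀ y ∈ Icc (0 : ℝ) 1, u s y - ε * Real.exp ((K + 1) * s) = 0 →
        0 ≤ ut s y - ε * (Real.exp ((K + 1) * s) * (K + 1)) →
        Z s y * uxx s y + B s y * ux s y ≤ 0 → False := by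
      intro s hs y hy a b c
      rw [he s hs y hy] at b
      have := mul_le_mul_of_nonneg_right (hC s hs y hy) (hp s).le
      rw [sub_eq_zero] at a
      rw [a] at b
      nlinarith [hp s]
    refine MP.mp_family_both (ι := Unit) (t0 := t0) (t1 := t1) zero_lt_one
      (fun _ s y => u s y - ε * Real.exp ((K + 1) * s))
      (fun _ s y => ut s y - ε * (Real.exp ((K + 1) * s) * (K + 1))) (fun _ => ux) (fun _ => uxx)
      (fun _ => hc.sub (by fun_prop)) ?_ ?_ ?_ ?_ ?_ ?_ ?_ () t x htt.1 htt.2 hxx'.1 hxx'.2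
    · intro _ s y a b c d
      refine (past_of (ht s ⟨a.le, b⟩ y ⟨c, d⟩) a b).sub (HasDerivAt.hasDerivWithinAt ?_)
      simpa using (((hasDerivAt_id s).const_mul (K + 1)).exp).const_mul ε
    · intro _ s y a b c d
      exact (hx s ⟨a.le, b⟩ y ⟨c, d⟩).sub_const _
    · intro _ s y a b c d
      exact (hxx s ⟨a.le, b⟩ y ⟨c.le, d.le⟩).hasDerivAt (Icc_mem_nhds c d)
    · intro _ y a b
      linarith [hi y ⟨a, b⟩, hp t0]
    · intro _ s y a b c d _ e f g h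
      refine fin s ⟨a.le, b⟩ y ⟨c.le, d.le⟩ e f ?_
      rw [g, mul_zero, add_zero]
      exact mul_nonpos_of_nonneg_of_nonpos (hZ s ⟨a.le, b⟩ y ⟨c.le, d.le⟩) h
    · intro _ s a b _ e f g
      refine fin s ⟨a.le, b⟩ 0 ⟨le_rfl, zero_le_one⟩ e f ?_
      rw [(h0 s ⟨a.le, b⟩).1, zero_mul, zero_add]
      exact mul_nonpos_of_nonneg_of_nonpos (h0 s ⟨a.le, b⟩).2 g
    · intro _ s a b _ e f g
      refine fin s ⟨a.le, b⟩ 1 ⟨zero_le_one, le_rfl⟩ e f ?_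
      rw [(h1 s ⟨a.le, b⟩).1, zero_mul, zero_add]
      exact mul_nonpos_of_nonpos_of_nonneg (h1 s ⟨a.le, b⟩).2 g
  refine le_of_forall_pos_le_add fun δ hδ => ?_
  have hE := Real.exp_pos ((K + 1) * t)
  have := key (δ / Real.exp ((K + 1) * t)) (div_pos hδ hE)
  rw [div_mul_cancel₀ _ hE.ne'] at this
  linarith

section
variable {S : Ex.Sys E3} {t0 t1 : ℝ} {U : ℝ → ℝ → E3}

lemma hd_U (hU : Ex.IsSol S t0 t1 U) {t x : ℝ} (ht : t ∈ Icc t0 t1) (hx : x ∈ Icc (0 : ℝ) 1) :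
    HasDerivWithinAt (U t) (Ex.jet 1 (U t) x) (Icc 0 1) x := by
  rw [Ex.jet, iteratedDerivWithin_one]
  exact ((sol_slice hU ht).differentiableOn (by simp) x hx).hasDerivWithinAt

lemma hd_comp (hU : Ex.IsSol S t0 t1 U) {t x : ℝ} (ht : t ∈ Icc t0 t1) (hx : x ∈ Icc (0 : ℝ) 1)
    {F : ℝ × E3 → ℝ} (hF : DifferentiableAt ℝ F (x, U t x)) :
    HasDerivWithinAt (fun y => F (y, U t y)) (fderiv ℝ F (x, U t x) (1, Ex.jet 1 (U t) x))
      (Icc 0 1) x :=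
  HasFDerivAt.comp_hasDerivWithinAt (f := fun y : ℝ => ((y, U t y) : ℝ × E3)) x hF.hasFDerivAt
    ((hasDerivWithinAt_id x _).prodMk (hd_U hU ht hx))

end

variable {e : ℝ} {b : ℕ} {h : Rel e b} {t0 t1 : ℝ} {U : ℝ → ℝ → E3}

lemma ct0 (hU : Ex.IsSol (sys h) t0 t1 U) {t x : ℝ} (ht : t ∈ Icc t0 t1) (hx : x ∈ Icc (0 : ℝ) 1) :
    ct (sys h) U 0 0 t x = ZF e x (cj U 2 0 t x) * cj U 0 2 t x + ff e (x, U t x) +
      aa e (x, U t x) * b * (1 - 2 * x) * (cj U 0 1 t x - cj U 1 0 t x) := by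
  have := aa_mu e (x, U t x)
  rw [ct_zero, ← sol_jet hU 2 ht hx, ← sol_jet hU 1 ht hx, cj_zero, cj_zero]
  simp only at this
  simp [Ex.Sys.F, sys, Psi, this, add_assoc]

lemma ct1 (hU : Ex.IsSol (sys h) t0 t1 U) {t x : ℝ} (ht : t ∈ Icc t0 t1) (hx : x ∈ Icc (0 : ℝ) 1) :
    ct (sys h) U 1 0 t x = ZF e x (cj U 2 0 t x) * cj U 1 2 t x +
      Z1F e x (cj U 2 0 t x) (cj U 2 1 t x) * cj U 1 1 t x +
      Dt (ff e) (x, U t x) (Ex.jet 1 (U t) x) := by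
  have := aa_mu e (x, U t x)
  rw [ct_zero, ← sol_jet hU 2 ht hx, ← sol_jet hU 1 ht hx, ← sol_jet hU 1 ht hx, cj_zero]
  simp only at this
  simp [Ex.Sys.F, sys, Psi, this, add_assoc]

lemma ct2 (hU : Ex.IsSol (sys h) t0 t1 U) {t x : ℝ} (ht : t ∈ Icc t0 t1) (hx : x ∈ Icc (0 : ℝ) 1) :
    ct (sys h) U 2 0 t x = ZF e x (cj U 2 0 t x) * cj U 2 2 t x +
      gg e ((x, U t x), Ex.jet 1 (U t) x) := by
  have := aa_mu e (x, U t x)
  rw [ct_zero, ← sol_jet hU 2 ht hx, cj_zero]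
  simp only at this
  simp [Ex.Sys.F, sys, Psi, this]

lemma hd_ZF (e : ℝ) {k : ℝ → ℝ} {k1 x : ℝ} {s : Set ℝ} (hk : HasDerivWithinAt k k1 s x) :
    HasDerivWithinAt (fun y => ZF e y (k y)) (Z1F e x (k x) k1) s x := by
  have h0 := (hd_m0 x).hasDerivWithinAt (s := s)
  refine HasDerivWithinAt.congr_deriv ((h0.const_mul (2 * e)).mul ((h0.mul hk).const_sub 1)) ?_
  simp only [Z1F]
  ring

lemma ZF_nonneg (he : 0 < e) {y : ℝ × E3} (hy : y ∈ Om) (hx : y.1 ∈ Icc (0 : ℝ) 1) :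
    0 ≤ ZF e y.1 (y.2 2) :=
  mul_nonneg (mul_nonneg (by linarith) (m0_nonneg hx.1 hx.2)) hy.2.1.le

/-- `P = η'` is preserved. -/
theorem peq0 (h01 : t0 < t1) (hU : Ex.IsSol (sys h) t0 t1 U)
    (hi : ∀ x ∈ Icc (0 : ℝ) 1, U t0 x 1 = cj U 0 1 t0 x) :
    ∀ t ∈ Icc t0 t1, ∀ x ∈ Icc (0 : ℝ) 1, U t x 1 = cj U 0 1 t x := by
  have j0 := jet_sol h01 hU 0
  have j1 := jet_sol h01 hU 1
  have j2 := jet_sol h01 hU 2
  have he := h.1
  obtain ⟨c, hc⟩ : ∃ c : ℝ × E3 → ℝ, c = fun y => aa e y * b * (1 - 2 * y.1) := ⟨_, rfl⟩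
  have hcd : ContDiff ℝ ∞ c := by have := contDiff_aa e; rw [hc]; fun_prop
  obtain ⟨C, hC⟩ : ∃ C : ℝ → ℝ → ℝ, C = fun t x => fderiv ℝ (ff e) (x, U t x) (0, !₂[1, 0, 0]) +
    fderiv ℝ c (x, U t x) (1, !₂[cj U 0 1 t x, cj U 1 1 t x, cj U 2 1 t x]) := ⟨_, rfl⟩
  have hUc : ContinuousOn (fun p : ℝ × ℝ => ((p.2, U p.1 p.2) : ℝ × E3)) (Icc t0 t1 ×ˢ Icc 0 1) :=
    continuousOn_snd.prodMk hU.smooth.continuousOn
  have hCc : ContinuousOn (fun p : ℝ × ℝ => C p.1 p.2) (Icc t0 t1 ×ˢ Icc 0 1) := by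
    rw [hC]
    refine ContinuousOn.add (ContinuousOn.clm_apply (fun p hp => ?_) continuousOn_const)
      (ContinuousOn.clm_apply ((hcd.continuous_fderiv (by simp)).comp_continuousOn hUc) ?_)
    · exact ContinuousAt.comp_continuousWithinAt (f := fun p : ℝ × ℝ => ((p.2, U p.1 p.2) : ℝ × E3))
        ((cd_ff e (hU.mem p.1 hp.1 p.2 hp.2)).fderiv_right (m := 0) (by simp)).continuousAt
        (hUc p hp)
    · refine continuousOn_const.prodMk ((PiLp.continuous_toLp 2 _).comp_continuousOn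
        (continuousOn_pi.2 fun i => ?_))
      fin_cases i
      · exact j0.cu 1
      · exact j1.cu 1
      · exact j2.cu 1
  obtain ⟨K, hK⟩ := (isCompact_Icc.prod isCompact_Icc).exists_bound_of_continuousOn hCc
  have hj : ∀ t ∈ Icc t0 t1, ∀ x ∈ Icc (0 : ℝ) 1,
      Ex.jet 1 (U t) x = !₂[cj U 0 1 t x, cj U 1 1 t x, cj U 2 1 t x] := fun t ht x hx => by
    ext i
    fin_cases i <;> simp [sol_jet hU 1 ht hx]
  have heq : ∀ t ∈ Icc t0 t1, ∀ x ∈ Icc (0 : ℝ) 1, ct (sys h) U 1 0 t x - ct (sys h) U 0 1 t x =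
      ZF e x (cj U 2 0 t x) * (cj U 1 2 t x - cj U 0 3 t x) +
      (Z1F e x (cj U 2 0 t x) (cj U 2 1 t x) + c (x, U t x)) * (cj U 1 1 t x - cj U 0 2 t x) +
      C t x * (cj U 1 0 t x - cj U 0 1 t x) := by
    intro t ht x hx
    have a1 := (((hd_ZF e (j2.dx 0 t x ht hx)).mul (j0.dx 2 t x ht hx)).add
      (hd_comp hU ht hx ((cd_ff e (hU.mem t ht x hx)).differentiableAt (by simp)))).add
      ((hd_comp hU ht hx (hcd.differentiable (by simp) _)).mul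
        ((j0.dx 1 t x ht hx).sub (j1.dx 0 t x ht hx)))
    have a2 := (uniqueDiffOn_Icc zero_lt_one x hx).eq_deriv _ (j0.dv 0 t x ht hx)
      (a1.congr (fun y hy => by rw [ct0 hU ht hy, hc]; rfl) (by rw [ct0 hU ht hx, hc]; rfl))
    have a3 : Dt (ff e) (x, U t x) (Ex.jet 1 (U t) x) =
        fderiv ℝ (ff e) (x, U t x) (1, Ex.jet 1 (U t) x) +
          (cj U 1 0 t x - cj U 0 1 t x) * fderiv ℝ (ff e) (x, U t x) (0, !₂[1, 0, 0]) := by
      rw [← smul_eq_mul, ← map_smul, ← map_add, Dt, hj t ht x hx]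
      congr 1
      ext i
      · simp
      · fin_cases i <;> simp [cj_zero]
    rw [a2, ct1 hU ht hx, a3, hC]
    simp only [Pi.sub_apply, ← hj t ht x hx]
    ring
  have hm : ∀ σ : ℝ, ∀ t ∈ Icc t0 t1, ∀ x ∈ Icc (0 : ℝ) 1,
      σ * (cj U 1 0 t x - cj U 0 1 t x) ≤ 0 := fun σ => by
    refine lin_nonpos (K := K) (u := fun t x => σ * (cj U 1 0 t x - cj U 0 1 t x))
      (ut := fun t x => σ * (ct (sys h) U 1 0 t x - ct (sys h) U 0 1 t x))
      (ux := fun t x => σ * (cj U 1 1 t x - cj U 0 2 t x))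
      (uxx := fun t x => σ * (cj U 1 2 t x - cj U 0 3 t x))
      (Z := fun t x => ZF e x (cj U 2 0 t x))
      (B := fun t x => Z1F e x (cj U 2 0 t x) (cj U 2 1 t x) + c (x, U t x)) (C := C)
      (continuousOn_const.mul ((j1.cu 0).sub (j0.cu 1)))
      (fun t ht x hx => ((j1.dt 0 t x ht hx).sub (j0.dt 1 t x ht hx)).const_mul σ)
      (fun t ht x hx => ((j1.dx 0 t x ht hx).sub (j0.dx 1 t x ht hx)).const_mul σ)
      (fun t ht x hx => ((j1.dx 1 t x ht hx).sub (j0.dx 2 t x ht hx)).const_mul σ)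
      (fun t ht x hx => by rw [heq t ht x hx]; ring)
      (fun t ht x hx => ZF_nonneg he (hU.mem t ht x hx) hx)
      (fun t ht x hx => (le_abs_self _).trans (hK (t, x) ⟨ht, hx⟩)) (fun t _ => ?_) (fun t _ => ?_)
      (fun x hx => by simp only [cj_zero, hi x hx, sub_self, mul_zero, le_refl])
    · have hm : m0 0 = 0 := m0_left (by norm_num)
      have hm1 : m1 0 = 1 := m1_left (by norm_num)
      simp only [hc, ZF, Z1F, hm, hm1, aa_zero]
      exact ⟨by ring, by have := h.2; nlinarith⟩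
    · have hm : m0 1 = 0 := by rw [m0_right (by norm_num)]; norm_num
      have hm1 : m1 1 = -1 := m1_right (by norm_num)
      simp only [hc, ZF, Z1F, hm, hm1, aa_one]
      exact ⟨by ring, by have := h.2; nlinarith⟩
  intro t ht x hx
  have a := hm 1 t ht x hx
  have b := hm (-1) t ht x hx
  rw [cj_zero] at a b
  linarith

/-- jets of `P` from `P = η'`. -/
theorem peq_jet {S : Ex.Sys E3} (h01 : t0 < t1) (hU : Ex.IsSol S t0 t1 U) {t : ℝ}
    (ht : t ∈ Icc t0 t1) (hP : ∀ x ∈ Icc (0 : ℝ) 1, U t x 1 = cj U 0 1 t x) (j : ℕ) :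
    ∀ x ∈ Icc (0 : ℝ) 1, cj U 1 j t x = cj U 0 (j + 1) t x := by
  induction j with
  | zero => exact hP
  | succ j ih =>
    intro x hx
    exact (uniqueDiffOn_Icc zero_lt_one x hx).eq_deriv _ ((jet_sol h01 hU 1).dx j t x ht hx)
      (((jet_sol h01 hU 0).dx (j + 1) t x ht hx).congr ih (ih x hx))

/-- `P = η'` with all jets. -/
theorem peq (h01 : t0 < t1) (hU : Ex.IsSol (sys h) t0 t1 U)
    (hi : ∀ x ∈ Icc (0 : ℝ) 1, U t0 x 1 = cj U 0 1 t0 x) (j : ℕ) :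
    ∀ t ∈ Icc t0 t1, ∀ x ∈ Icc (0 : ℝ) 1, cj U 1 j t x = cj U 0 (j + 1) t x :=
  fun t ht => peq_jet h01 hU ht (peq0 h01 hU hi t ht) j

end Crest.Agent.N207.S.Ga
end
end

-- ▼ part N207/S/Ga/X

/-!
Row 207, S0320, block GAUGE (helper66): near `ξ = 0` a solution of `sys` solves (W), (K) in the
`x`-gauge; sufficient conditions for membership in `Om`.
-/

set_option autoImplicit false

open Set Filter
open scoped Topology ContDiff

noncomputable section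
namespace Crest.Agent.N207.S.Ga

/-- jets of the identity. -/
def idj (j : ℕ) (x : ℝ) : ℝ := if j = 0 then x else if j = 1 then 1 else 0

/-- jets of `w = x + η`. -/
def wj (U : ℝ → ℝ → E3) (j : ℕ) (t x : ℝ) : ℝ := idj j x + cj U 0 j t x

lemma wj_zero (U : ℝ → ℝ → E3) (t x : ℝ) : wj U 0 t x = x + U t x 0 := rfl
lemma wj_one (U : ℝ → ℝ → E3) (t x : ℝ) : wj U 1 t x = 1 + cj U 0 1 t x := rfl
lemma wj_succ (U : ℝ → ℝ → E3) (j : ℕ) (t x : ℝ) : wj U (j + 2) t x = cj U 0 (j + 2) t x := by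
  simp [wj, idj]

lemma hd_idj (j : ℕ) (x : ℝ) : HasDerivAt (idj j) (idj (j + 1) x) x := by
  rcases j with _ | _ | j
  · exact hasDerivAt_id x
  · exact hasDerivAt_const x 1
  · exact hasDerivAt_const x 0

lemma continuous_idj (j : ℕ) : Continuous (idj j) :=
  continuous_iff_continuousAt.2 fun x => (hd_idj j x).continuousAt

variable {e : ℝ} {b : ℕ} {h : Rel e b} {t0 t1 : ℝ} {U : ℝ → ℝ → E3}

lemma jet_wj {S : Ex.Sys E3} (h01 : t0 < t1) (hU : Ex.IsSol S t0 t1 U) :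
    Jet t0 t1 1 (wj U) (ct S U 0) where
  cu j := ((continuous_idj j).comp continuous_snd).continuousOn.add ((jet_sol h01 hU 0).cu j)
  cv := (jet_sol h01 hU 0).cv
  dx j t x ht hx := (hd_idj j x).hasDerivWithinAt.add ((jet_sol h01 hU 0).dx j t x ht hx)
  dv := (jet_sol h01 hU 0).dv
  dt j t x ht hx := ((jet_sol h01 hU 0).dt j t x ht hx).const_add _

/-- the `x`-gauge equations near `ξ = 0`. -/
theorem xsol (h01 : t0 < t1) (hU : Ex.IsSol (sys h) t0 t1 U)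
    (hP : ∀ t ∈ Icc t0 t1, ∀ x ∈ Icc (0 : ℝ) 1, U t x 1 = cj U 0 1 t x) {xs : ℝ}
    (hxs : xs < 1 / 3) : XSol e t0 t1 xs (wj U) (ct (sys h) U 0) (cj U 2) (ct (sys h) U 2) := by
  have sub : ∀ x ∈ Icc (0 : ℝ) xs, x ∈ Icc (0 : ℝ) 1 ∧ x < 1 / 3 := fun x hx =>
    ⟨⟨hx.1, by linarith [hx.2]⟩, by linarith [hx.2]⟩
  have pos : ∀ t ∈ Icc t0 t1, ∀ x ∈ Icc (0 : ℝ) xs, 0 < x + U t x 0 := fun t ht x hx => by
    have := (hU.mem t ht x (sub x hx).1).1
    simpa [wF, m1_left (sub x hx).2] using this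
  refine ⟨(jet_wj h01 hU).monoX (by linarith), (jet_sol h01 hU 2).monoX (by linarith),
    fun t x ht hx => pos t ht x hx, fun t x ht hx => ?_, fun t x ht hx => ?_⟩
  · obtain ⟨a, c⟩ := sub x hx
    rw [ct0 hU ht a, ff_left e c, wj_succ U 0, wj_one, wj_zero]
    simp only [cj_zero, hP t ht x a, sub_self, mul_zero, add_zero, rhsW, ZF, m0_left c.le, zero_add]
    ring
  · obtain ⟨a, c⟩ := sub x hx
    rw [ct2 hU ht a, gg_left h.1 (hU.mem t ht x a) c, sol_jet hU 1 ht a, wj_one, wj_zero]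
    simp only [cj_zero, hP t ht x a, rhsK, gxF, ZF, m0_left c.le]
    ring

/-- bounds of the profile functions. -/
lemma exists_prof_bound : ∃ M : ℝ, 1 ≤ M ∧ ∀ x ∈ Icc (0 : ℝ) 1,
    |sig x| ≤ M ∧ |m2 x * (1 + m1 x ^ 2)| ≤ M ∧ |m1 x| ≤ M := by
  have h1 := contDiff_m1.continuous
  have h2 := contDiff_m2.continuous
  obtain ⟨A, hA⟩ := isCompact_Icc.exists_bound_of_continuousOn
    (contDiff_sig.continuous.continuousOn (s := Icc (0 : ℝ) 1))
  obtain ⟨B, hB⟩ := (isCompact_Icc (a := (0 : ℝ)) (b := 1)).exists_bound_of_continuousOn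
    (f := fun x => m2 x * (1 + m1 x ^ 2)) (by fun_prop)
  obtain ⟨C, hC⟩ := isCompact_Icc.exists_bound_of_continuousOn
    (h1.continuousOn (s := Icc (0 : ℝ) 1))
  refine ⟨max 1 (max A (max B C)), le_max_left _ _, fun x hx => ⟨?_, ?_, ?_⟩⟩
  · exact (hA x hx).trans (by simp)
  · exact (hB x hx).trans (by simp)
  · exact (hC x hx).trans (by simp)

/-- the smallness constant for `η`. -/
def del0 : ℝ := 1 / (2 * exists_prof_bound.choose)

lemma del0_pos : 0 < del0 := by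
  have := exists_prof_bound.choose_spec.1
  unfold del0; positivity

lemma small_of_del0 {x η : ℝ} (hx : x ∈ Icc (0 : ℝ) 1) (hη : |η| ≤ del0) :
    |sig x * η| ≤ 1 / 2 ∧ |m2 x * (1 + m1 x ^ 2) * η| ≤ 1 / 2 ∧ |m1 x * η| ≤ 1 / 2 := by
  obtain ⟨hM, hb⟩ := exists_prof_bound.choose_spec
  have e : exists_prof_bound.choose * del0 = 1 / 2 := by unfold del0; field_simp
  obtain ⟨a, b, c⟩ := hb x hx
  refine ⟨?_, ?_, ?_⟩ <;> rw [abs_mul, ← e] <;>
    exact mul_le_mul (by assumption) hη (abs_nonneg _) (by linarith)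

/-- sufficient condition for membership in `Om`; no smallness of `η` is needed near the poles. -/
theorem mem_Om {x : ℝ} {u : E3} (hx : x ∈ Icc (0 : ℝ) 1) (hη : 1 / 3 ≤ x → |u 0| ≤ del0)
    (hw : 0 < wF x (u 0)) (hk : 0 < 1 - m0 x * u 2) : (x, u) ∈ Om := by
  refine ⟨hw, hk, ?_, ?_⟩
  · rcases lt_or_ge x (1 / 3) with a | a
    · simp [sig_left a]
    · linarith [(abs_le.1 (small_of_del0 hx (hη a)).1).2]
  · rcases lt_or_ge x (1 / 3) with a | a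
    · simp [DF, m2_left a]
    · unfold DF
      linarith [(abs_le.1 (small_of_del0 hx (hη a)).2.1).1]

/-- the compact sets of the continuation argument. -/
def KK (c C : ℝ) : Set (ℝ × E3) :=
  {y | y.1 ∈ Icc (0 : ℝ) 1 ∧ (1 / 4 < y.1 → |y.2 0| ≤ del0) ∧ c ≤ wF y.1 (y.2 0) ∧
    c ≤ 1 - m0 y.1 * y.2 2 ∧ ∀ i, |y.2 i| ≤ C}

theorem KK_subset {c : ℝ} (hc : 0 < c) (C : ℝ) : KK c C ⊆ Om := fun _ hy =>
  mem_Om hy.1 (fun a => hy.2.1 (by linarith)) (hc.trans_le hy.2.2.1) (hc.trans_le hy.2.2.2.1)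

theorem isCompact_KK (c C : ℝ) : IsCompact (KK c C) := by
  have h0 := contDiff_m0.continuous
  have h1 := contDiff_m1.continuous
  refine ((isCompact_Icc (a := (0 : ℝ)) (b := 1)).prod
    (isCompact_closedBall (0 : E3) (2 * C))).of_isClosed_subset ?_ ?_
  · have a0 : IsClosed {y : ℝ × E3 | y.1 ∈ Icc (0 : ℝ) 1} := isClosed_Icc.preimage continuous_fst
    have a1 : IsClosed {y : ℝ × E3 | 1 / 4 < y.1 → |y.2 0| ≤ del0} :=
      isClosed_imp (isOpen_lt continuous_const continuous_fst)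
        (isClosed_le (by fun_prop) continuous_const)
    have a2 : IsClosed {y : ℝ × E3 | c ≤ wF y.1 (y.2 0)} :=
      isClosed_le continuous_const (by unfold wF; fun_prop)
    have a3 : IsClosed {y : ℝ × E3 | c ≤ 1 - m0 y.1 * y.2 2} :=
      isClosed_le continuous_const (by fun_prop)
    have a4 : IsClosed {y : ℝ × E3 | ∀ i, |y.2 i| ≤ C} := by
      rw [ofPred_forall]
      exact isClosed_iInter fun i => isClosed_le (by fun_prop) continuous_const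
    exact a0.inter (a1.inter (a2.inter (a3.inter a4)))
  · intro y hy
    refine ⟨hy.1, ?_⟩
    have hb := hy.2.2.2.2
    have hC : 0 ≤ C := (abs_nonneg _).trans (hb 0)
    rw [mem_closedBall_zero_iff, EuclideanSpace.norm_eq, Real.sqrt_le_left (by linarith),
      Fin.sum_univ_three]
    simp only [Real.norm_eq_abs]
    have := fun i => pow_le_pow_left₀ (abs_nonneg _) (hb i) 2
    nlinarith [this 0, this 1, this 2]

end Crest.Agent.N207.S.Ga
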