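import Mathlib
import Crest.Agent.N207.S.Ex.Defs

-- ▼ part N207/S/Ga/M
section

/-!
Row 207, S0320, block GAUGE (helper66): the reference profile `m` (`m = x` for `x ≤ 1/3`,
`m = 1 - x` for `x ≥ 2/3`), `nu = m/(x(1-x))`, `sig = (1-m'²)/m`, and a patching lemma.
-/

set_option autoImplicit false

open Set Filter
open scoped Topology ContDiff

noncomputable section
namespace Crest.Agent.N207.S.Ga

/-- transition function. -/
def st (x : ℝ) : ℝ := Real.smoothTransition (3 * x - 1)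

/-- the reference profile. -/
def m0 (x : ℝ) : ℝ := x + st x * (1 - 2 * x)

def m1 : ℝ → ℝ := deriv m0
def m2 : ℝ → ℝ := deriv m1
def m3 : ℝ → ℝ := deriv m2

/-- `m/(x(1-x))`. -/
def nu (x : ℝ) : ℝ := (1 - st x) / (1 - x) + st x / x

/-- `(1-m'²)/m`. -/
def sig (x : ℝ) : ℝ := (1 - m1 x ^ 2) / m0 x

lemma st_left {x : ℝ} (h : x ≤ 1 / 3) : st x = 0 :=
  Real.smoothTransition.zero_of_nonpos (by linarith)

lemma st_right {x : ℝ} (h : 2 / 3 ≤ x) : st x = 1 :=
  Real.smoothTransition.one_of_one_le (by linarith)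

lemma st_nonneg (x : ℝ) : 0 ≤ st x := Real.smoothTransition.nonneg _
lemma st_le_one (x : ℝ) : st x ≤ 1 := Real.smoothTransition.le_one _

lemma contDiff_st : ContDiff ℝ ∞ st :=
  Real.smoothTransition.contDiff.comp (by fun_prop)

lemma contDiff_m0 : ContDiff ℝ ∞ m0 := by
  have := contDiff_st
  unfold m0; fun_prop

lemma contDiff_m1 : ContDiff ℝ ∞ m1 := contDiff_m0.deriv' (n := ∞)
lemma contDiff_m2 : ContDiff ℝ ∞ m2 := contDiff_m1.deriv' (n := ∞)
lemma contDiff_m3 : ContDiff ℝ ∞ m3 := contDiff_m2.deriv' (n := ∞)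

lemma hd_m0 (x : ℝ) : HasDerivAt m0 (m1 x) x :=
  (contDiff_m0.differentiable (by simp) x).hasDerivAt
lemma hd_m1 (x : ℝ) : HasDerivAt m1 (m2 x) x :=
  (contDiff_m1.differentiable (by simp) x).hasDerivAt
lemma hd_m2 (x : ℝ) : HasDerivAt m2 (m3 x) x :=
  (contDiff_m2.differentiable (by simp) x).hasDerivAt

lemma m0_left {x : ℝ} (h : x ≤ 1 / 3) : m0 x = x := by simp [m0, st_left h]
lemma m0_right {x : ℝ} (h : 2 / 3 ≤ x) : m0 x = 1 - x := by simp only [m0, st_right h]; ring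

lemma deriv_of_Iio {f g : ℝ → ℝ} {c x d : ℝ} (h : ∀ y, y < c → f y = g y) (hx : x < c)
    (hg : HasDerivAt g d x) : deriv f x = d := by
  have : f =ᶠ[𝓝 x] g := mem_of_superset (Iio_mem_nhds hx) h
  rw [this.deriv_eq, hg.deriv]
  
lemma deriv_of_Ioi {f g : ℝ → ℝ} {c x d : ℝ} (h : ∀ y, c < y → f y = g y) (hx : c < x)
    (hg : HasDerivAt g d x) : deriv f x = d := by
  have : f =ᶠ[𝓝 x] g := mem_of_superset (Ioi_mem_nhds hx) h
  rw [this.deriv_eq, hg.deriv]

lemma m1_left {x : ℝ} (h : x < 1 / 3) : m1 x = 1 :=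
  deriv_of_Iio (fun _ hy => m0_left hy.le) h (hasDerivAt_id x)
lemma m2_left {x : ℝ} (h : x < 1 / 3) : m2 x = 0 :=
  deriv_of_Iio (fun _ hy => m1_left hy) h (hasDerivAt_const x 1)
lemma m3_left {x : ℝ} (h : x < 1 / 3) : m3 x = 0 :=
  deriv_of_Iio (fun _ hy => m2_left hy) h (hasDerivAt_const x 0)
lemma m1_right {x : ℝ} (h : 2 / 3 < x) : m1 x = -1 :=
  deriv_of_Ioi (fun _ hy => m0_right hy.le) h ((hasDerivAt_id x).const_sub 1)
lemma m2_right {x : ℝ} (h : 2 / 3 < x) : m2 x = 0 :=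
  deriv_of_Ioi (fun _ hy => m1_right hy) h (hasDerivAt_const x (-1))
lemma m3_right {x : ℝ} (h : 2 / 3 < x) : m3 x = 0 :=
  deriv_of_Ioi (fun _ hy => m2_right hy) h (hasDerivAt_const x 0)

lemma sig_left {x : ℝ} (h : x < 1 / 3) : sig x = 0 := by simp [sig, m1_left h]
lemma sig_right {x : ℝ} (h : 2 / 3 < x) : sig x = 0 := by simp [sig, m1_right h]
lemma nu_left {x : ℝ} (h : x ≤ 1 / 3) : nu x = 1 / (1 - x) := by simp [nu, st_left h]
lemma nu_right {x : ℝ} (h : 2 / 3 ≤ x) : nu x = 1 / x := by simp [nu, st_right h]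

lemma m0_pos {x : ℝ} (h0 : 0 < x) (h1 : x < 1) : 0 < m0 x := by
  have a := st_nonneg x
  have b := st_le_one x
  have e : m0 x = (1 - st x) * x + st x * (1 - x) := by unfold m0; ring
  rw [e]
  rcases b.eq_or_lt with b | b
  · rw [b]; linarith
  · have := mul_pos (sub_pos.2 b) h0
    have := mul_nonneg a (sub_pos.2 h1).le
    linarith

lemma m0_nonneg {x : ℝ} (h0 : 0 ≤ x) (h1 : x ≤ 1) : 0 ≤ m0 x := by
  have a := st_nonneg x
  have b := st_le_one x
  have e : m0 x = (1 - st x) * x + st x * (1 - x) := by unfold m0; ring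
  rw [e]
  exact add_nonneg (mul_nonneg (sub_nonneg.2 b) h0) (mul_nonneg a (sub_nonneg.2 h1))

lemma nu_pos (x : ℝ) : 0 < nu x := by
  rcases le_or_gt x (1 / 3) with h | h
  · rw [nu_left h]; exact one_div_pos.2 (by linarith)
  rcases le_or_gt (2 / 3) x with h' | h'
  · rw [nu_right h']; exact one_div_pos.2 (by linarith)
  have a := st_nonneg x
  have b := st_le_one x
  unfold nu
  rcases b.eq_or_lt with b | b
  · rw [b]; simp; linarith
  · have := div_pos (sub_pos.2 b) (show 0 < 1 - x by linarith)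
    have := div_nonneg a (show 0 ≤ x by linarith)
    linarith

lemma m0_eq (x : ℝ) : m0 x = x * (1 - x) * nu x := by
  rcases le_or_gt x (1 / 3) with h | h
  · rw [nu_left h, m0_left h]
    have : (1 - x) ≠ 0 := by linarith
    field_simp
  rcases le_or_gt (2 / 3) x with h' | h'
  · rw [nu_right h', m0_right h']
    have : x ≠ 0 := by linarith
    field_simp
  have : (1 - x) ≠ 0 := by linarith
  have : x ≠ 0 := by linarith
  unfold nu m0
  field_simp
  ring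

lemma sig_mul (x : ℝ) : sig x * m0 x = 1 - m1 x ^ 2 := by
  rcases lt_or_ge x (1 / 3) with h | h
  · rw [sig_left h, m1_left h]; ring
  rcases lt_or_ge (2 / 3) x with h' | h'
  · rw [sig_right h', m1_right h']; ring
  have := m0_pos (x := x) (by linarith) (by linarith)
  unfold sig
  field_simp

/-- a function that is smooth on the three standard pieces is smooth. -/
lemma contDiff_of_three {f A0 A1 : ℝ → ℝ} (h0 : ∀ x, x < 1 / 3 → ContDiffAt ℝ ∞ A0 x)
    (hm : ∀ x, 0 < x → x < 1 → ContDiffAt ℝ ∞ f x) (h1 : ∀ x, 2 / 3 < x → ContDiffAt ℝ ∞ A1 x)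
    (e0 : ∀ x, x < 1 / 3 → f x = A0 x) (e1 : ∀ x, 2 / 3 < x → f x = A1 x) : ContDiff ℝ ∞ f := by
  refine contDiff_iff_contDiffAt.2 fun x => ?_
  rcases lt_or_ge x (1 / 3) with h | h
  · exact (h0 x h).congr_of_eventuallyEq (mem_of_superset (Iio_mem_nhds h) e0)
  rcases lt_or_ge (2 / 3) x with h' | h'
  · exact (h1 x h').congr_of_eventuallyEq (mem_of_superset (Ioi_mem_nhds h') e1)
  exact hm x (by linarith) (by linarith)

lemma contDiff_nu : ContDiff ℝ ∞ nu := by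
  refine contDiff_of_three (A0 := fun x => 1 / (1 - x)) (A1 := fun x => 1 / x) ?_ ?_ ?_
    (fun x h => nu_left h.le) (fun x h => nu_right h.le)
  · intro x h
    exact contDiffAt_const.div (by fun_prop) (by linarith)
  · intro x h h'
    have := contDiff_st.contDiffAt (x := x)
    exact ((contDiffAt_const.sub this).div (by fun_prop) (by linarith)).add
      (this.div (by fun_prop) h.ne')
  · intro x h
    exact contDiffAt_const.div (by fun_prop) (by linarith)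

lemma contDiff_sig : ContDiff ℝ ∞ sig := by
  refine contDiff_of_three (A0 := fun _ => 0) (A1 := fun _ => 0) (fun _ _ => contDiffAt_const) ?_
    (fun _ _ => contDiffAt_const) (fun x h => sig_left h) (fun x h => sig_right h)
  intro x h h'
  exact (contDiffAt_const.sub (contDiff_m1.contDiffAt.pow 2)).div contDiff_m0.contDiffAt
    (m0_pos h h').ne'

section Patch
variable {F : Type*} [NormedAddCommGroup F] [NormedSpace ℝ F]

/-- patch three formulas along the coordinate `c`. -/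
def patch (c : F → ℝ) (A0 Am A1 : F → ℝ) (p : F) : ℝ :=
  if c p < 1 / 4 then A0 p else if 3 / 4 < c p then A1 p else Am p

/-- the three formulas agree on the overlaps inside `S`. -/
structure Agree (c : F → ℝ) (S : Set F) (A0 Am A1 : F → ℝ) : Prop where
  e0 : ∀ p ∈ S, 0 < c p → c p < 1 / 3 → A0 p = Am p
  e1 : ∀ p ∈ S, 2 / 3 < c p → c p < 1 → A1 p = Am p

variable {c : F → ℝ} {S : Set F} {A0 Am A1 : F → ℝ}

omit [NormedAddCommGroup F] [NormedSpace ℝ F] in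
lemma patch_left (h : Agree c S A0 Am A1) {p : F} (hp : p ∈ S) (hc : c p < 1 / 3) :
    patch c A0 Am A1 p = A0 p := by
  unfold patch
  split_ifs with h1 h2
  · rfl
  · linarith
  · exact (h.e0 p hp (by linarith) hc).symm

omit [NormedAddCommGroup F] [NormedSpace ℝ F] in
lemma patch_right (h : Agree c S A0 Am A1) {p : F} (hp : p ∈ S) (hc : 2 / 3 < c p) :
    patch c A0 Am A1 p = A1 p := by
  unfold patch
  split_ifs with h1 h2
  · linarith
  · rfl
  · exact (h.e1 p hp hc (by linarith)).symm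

omit [NormedAddCommGroup F] [NormedSpace ℝ F] in
lemma patch_mid (h : Agree c S A0 Am A1) {p : F} (hp : p ∈ S) (h0 : 0 < c p) (h1 : c p < 1) :
    patch c A0 Am A1 p = Am p := by
  unfold patch
  split_ifs with h2 h3
  · exact h.e0 p hp h0 (by linarith)
  · exact h.e1 p hp (by linarith) h1
  · rfl

lemma contDiffOn_patch (hc : Continuous c) (hS : IsOpen S) (h : Agree c S A0 Am A1)
    (h0 : ∀ p ∈ S, c p < 1 / 3 → ContDiffAt ℝ ∞ A0 p)
    (hm : ∀ p ∈ S, 0 < c p → c p < 1 → ContDiffAt ℝ ∞ Am p)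
    (h1 : ∀ p ∈ S, 2 / 3 < c p → ContDiffAt ℝ ∞ A1 p) {p : F} (hp : p ∈ S) :
    ContDiffAt ℝ ∞ (patch c A0 Am A1) p := by
  rcases lt_or_ge (c p) (1 / 3) with a | a
  · refine (h0 p hp a).congr_of_eventuallyEq ?_
    filter_upwards [hS.mem_nhds hp, hc.continuousAt.eventually (gt_mem_nhds a)] with y hy hy'
    exact patch_left h hy hy'
  rcases lt_or_ge (2 / 3) (c p) with b | b
  · refine (h1 p hp b).congr_of_eventuallyEq ?_
    filter_upwards [hS.mem_nhds hp, hc.continuousAt.eventually (lt_mem_nhds b)] with y hy hy'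
    exact patch_right h hy hy'
  · refine (hm p hp (by linarith) (by linarith)).congr_of_eventuallyEq ?_
    filter_upwards [hS.mem_nhds hp,
      hc.continuousAt.eventually (lt_mem_nhds (show 0 < c p by linarith)),
      hc.continuousAt.eventually (gt_mem_nhds (show c p < 1 by linarith))] with y hy hy' hy''
    exact patch_mid h hy hy' hy''

end Patch

end Crest.Agent.N207.S.Ga
end
end

-- ▼ part N207/S/Ga/Defs
section

/-!
Row 207, S0320, block GAUGE (helper66): the reduced Ricci flow in the global gauge `ξ ∈ [0,1]`.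
Unknown `u = (η, P, k)` (`P = η'`), `(w, x) = (ξ + m'η, m - (1-m'²)η)`, `Z = 2e m (1 - m k)`.
-/

set_option autoImplicit false

open Set Filter
open scoped Topology ContDiff

noncomputable section
namespace Crest.Agent.N207.S.Ga

abbrev E3 := EuclideanSpace ℝ (Fin 3)

def wF (x h : ℝ) : ℝ := x + m1 x * h
def w1F (x h P : ℝ) : ℝ := 1 + m2 x * h + m1 x * P
def xF (x h : ℝ) : ℝ := m0 x * (1 - sig x * h)
def x1F (x h P : ℝ) : ℝ := m1 x + 2 * m1 x * m2 x * h + (m1 x ^ 2 - 1) * P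
def DF (x h : ℝ) : ℝ := 1 + m2 x * (1 + m1 x ^ 2) * h
def ZF (e x k : ℝ) : ℝ := 2 * e * m0 x * (1 - m0 x * k)
def Z1F (e x k k1 : ℝ) : ℝ := 2 * e * (m1 x - 2 * m0 x * m1 x * k - m0 x ^ 2 * k1)
/-- `Z/x`. -/
def zeF (e x h k : ℝ) : ℝ := 2 * e * (1 - m0 x * k) / (1 - sig x * h)
/-- `w'' - m' η''`. -/
def A1F (x h P : ℝ) : ℝ := m3 x * h + 2 * m2 x * P
/-- `x'' - (m'²-1) η''`. -/
def A2F (x h P : ℝ) : ℝ := m2 x + (2 * m2 x ^ 2 + 2 * m1 x * m3 x) * h + 4 * m1 x * m2 x * P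
def G1F (e x h P k : ℝ) : ℝ := ZF e x k * A1F x h P - (ZF e x k * w1F x h P ^ 2 / wF x h + 1)
def G2F (e x h P k : ℝ) : ℝ := ZF e x k * A2F x h P - (zeF e x h k * x1F x h P ^ 2 + 1)
def betF (e x h P k : ℝ) : ℝ := (G1F e x h P k * (m1 x ^ 2 - 1) - G2F e x h P k * m1 x) / DF x h
def fF (e x h P k : ℝ) : ℝ := betF e x h P k * P -
  ((1 + m2 x * h) * G2F e x h P k - (m1 x + 2 * m1 x * m2 x * h) * G1F e x h P k) / DF x h

/-- the drift `β` of the heat operator. -/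
def bet (e : ℝ) (y : ℝ × E3) : ℝ := betF e y.1 (y.2 0) (y.2 1) (y.2 2)
/-- `η_t = Z η'' + ff`. -/
def ff (e : ℝ) (y : ℝ × E3) : ℝ := fF e y.1 (y.2 0) (y.2 1) (y.2 2)
/-- `Z/μ`. -/
def aa (e : ℝ) (y : ℝ × E3) : ℝ := 2 * e * nu y.1 * (1 - m0 y.1 * y.2 2)

/-- total `ξ`-derivative (with `η'` replaced by `P`). -/
def Dt (F : ℝ × E3 → ℝ) (y : ℝ × E3) (p : E3) : ℝ := fderiv ℝ F y (1, !₂[y.2 1, p 1, p 2])

/-- `k_t - Z k''` for `0 < ξ < 1`, `b` = `β`, `b1` = `β'`. -/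
def gmF (e x h P k k1 b b1 : ℝ) : ℝ :=
  -(ZF e x k * (2 * e * (m2 x - 2 * (m1 x ^ 2 + m0 x * m2 x) * k - 4 * m0 x * m1 x * k1)) +
    b * Z1F e x k k1 - Z1F e x k k1 ^ 2 / 2 - 2 * ZF e x k * b1 -
    ZF e x k ^ 2 * (w1F x h P / wF x h) ^ 2 -
    (1 + 1 / e) / 2 * (zeF e x h k * x1F x h P) ^ 2) / (2 * e * m0 x ^ 2)

/-- `k_t - Z k''` in the `x`-gauge. -/
def gxF (e x w w1 k k1 : ℝ) : ℝ :=
  4 * e * (1 - x * k) * k1 + e * (k + x * k1) ^ 2 + k1 + k ^ 2 +
    2 * e * (1 - x * k) ^ 2 * w1 ^ 2 / w ^ 2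

def gm (e : ℝ) (z : (ℝ × E3) × E3) : ℝ :=
  gmF e z.1.1 (z.1.2 0) (z.1.2 1) (z.1.2 2) (z.2 2) (bet e z.1) (Dt (bet e) z.1 z.2)
def g0 (e : ℝ) (z : (ℝ × E3) × E3) : ℝ :=
  gxF e z.1.1 (z.1.1 + z.1.2 0) (1 + z.1.2 1) (z.1.2 2) (z.2 2)
def g1 (e : ℝ) (z : (ℝ × E3) × E3) : ℝ :=
  gxF e (1 - z.1.1) (z.1.1 - z.1.2 0) (z.1.2 1 - 1) (z.1.2 2) (-z.2 2)
/-- `k_t = Z k'' + gg`. -/
def gg (e : ℝ) : (ℝ × E3) × E3 → ℝ := patch (fun z => z.1.1) (g0 e) (gm e) (g1 e)

/-- the domain. -/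
def Om : Set (ℝ × E3) :=
  {y | 0 < wF y.1 (y.2 0) ∧ 0 < 1 - m0 y.1 * y.2 2 ∧ 0 < 1 - sig y.1 * y.2 0 ∧ 0 < DF y.1 (y.2 0)}

/-- lower order part of the system. -/
def Psi (e : ℝ) (b : ℕ) (z : (ℝ × E3) × E3) : E3 :=
  !₂[ff e z.1 + aa e z.1 * b * (1 - 2 * z.1.1) * (z.2 0 - z.1.2 1),
    Z1F e z.1.1 (z.1.2 2) (z.2 2) * z.2 1 + Dt (ff e) z.1 z.2, gg e z]

lemma isOpen_Om : IsOpen Om := by
  have h0 := contDiff_m0.continuous
  have h1 := contDiff_m1.continuous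
  have h2 := contDiff_m2.continuous
  have h3 := contDiff_sig.continuous
  have a1 : IsOpen {y : ℝ × E3 | 0 < wF y.1 (y.2 0)} :=
    isOpen_lt continuous_const (by unfold wF; fun_prop)
  have a2 : IsOpen {y : ℝ × E3 | 0 < 1 - m0 y.1 * y.2 2} := isOpen_lt continuous_const (by fun_prop)
  have a3 : IsOpen {y : ℝ × E3 | 0 < 1 - sig y.1 * y.2 0} := isOpen_lt continuous_const (by fun_prop)
  have a4 : IsOpen {y : ℝ × E3 | 0 < DF y.1 (y.2 0)} :=
    isOpen_lt continuous_const (by unfold DF; fun_prop)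
  exact a1.inter (a2.inter (a3.inter a4))

lemma contDiff_aa (e : ℝ) : ContDiff ℝ ∞ (aa e) := by
  have h0 := contDiff_m0
  have h1 := contDiff_nu
  unfold aa; fun_prop

lemma aa_mu (e : ℝ) (y : ℝ × E3) : aa e y * Ex.mu y.1 = ZF e y.1 (y.2 2) := by
  unfold aa ZF Ex.mu
  rw [show 2 * e * m0 y.1 = 2 * e * (y.1 * (1 - y.1) * nu y.1) by rw [← m0_eq]]
  ring

lemma aa_pos {e : ℝ} (he : 0 < e) {y : ℝ × E3} (hy : y ∈ Om) : 0 < aa e y :=
  mul_pos (mul_pos (by linarith) (nu_pos _)) hy.2.1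

lemma cd_G1 (e : ℝ) {y : ℝ × E3} (hy : y ∈ Om) :
    ContDiffAt ℝ ∞ (fun y : ℝ × E3 => G1F e y.1 (y.2 0) (y.2 1) (y.2 2)) y := by
  have h0 := contDiff_m0
  have h1 := contDiff_m1
  have h2 := contDiff_m2
  have h3 := contDiff_m3
  have a := hy.1.ne'
  unfold wF at a
  unfold G1F ZF A1F w1F wF
  fun_prop (disch := assumption)

lemma cd_G2 (e : ℝ) {y : ℝ × E3} (hy : y ∈ Om) :
    ContDiffAt ℝ ∞ (fun y : ℝ × E3 => G2F e y.1 (y.2 0) (y.2 1) (y.2 2)) y := by
  have h0 := contDiff_m0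
  have h1 := contDiff_m1
  have h2 := contDiff_m2
  have h3 := contDiff_m3
  have h4 := contDiff_sig
  have a := hy.2.2.1.ne'
  unfold G2F ZF A2F x1F zeF
  fun_prop (disch := assumption)

lemma cd_bet (e : ℝ) {y : ℝ × E3} (hy : y ∈ Om) : ContDiffAt ℝ ∞ (bet e) y := by
  have h1 := contDiff_m1
  have h2 := contDiff_m2
  have g1 := cd_G1 e hy
  have g2 := cd_G2 e hy
  have a := hy.2.2.2.ne'
  unfold bet betF
  refine ((g1.mul (by fun_prop)).sub (g2.mul (by fun_prop))).div ?_ a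
  unfold DF; fun_prop

lemma cd_ff (e : ℝ) {y : ℝ × E3} (hy : y ∈ Om) : ContDiffAt ℝ ∞ (ff e) y := by
  have h1 := contDiff_m1
  have h2 := contDiff_m2
  have g1 := cd_G1 e hy
  have g2 := cd_G2 e hy
  have g3 := cd_bet e hy
  have a := hy.2.2.2.ne'
  unfold ff fF
  refine (g3.mul (by fun_prop)).sub ((((ContDiffAt.mul (by fun_prop) g2)).sub
    (ContDiffAt.mul (by fun_prop) g1)).div ?_ a)
  unfold DF; fun_prop

lemma cd_vec {F : Type*} [NormedAddCommGroup F] [NormedSpace ℝ F] {a b c : F → ℝ} {z : F}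
    (ha : ContDiffAt ℝ ∞ a z) (hb : ContDiffAt ℝ ∞ b z) (hc : ContDiffAt ℝ ∞ c z) :
    ContDiffAt ℝ ∞ (fun z => (!₂[a z, b z, c z] : E3)) z := by
  refine contDiffAt_euclidean.2 fun i => ?_
  fin_cases i
  · exact ha
  · exact hb
  · exact hc

lemma cd_Dt {F : ℝ × E3 → ℝ} {z : (ℝ × E3) × E3} (hF : ContDiffAt ℝ ∞ F z.1) :
    ContDiffAt ℝ ∞ (fun z : (ℝ × E3) × E3 => Dt F z.1 z.2) z := by
  unfold Dt
  refine ContDiffAt.clm_apply ((hF.fderiv_right (m := ∞) le_rfl).comp z contDiffAt_fst) ?_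
  exact contDiffAt_const.prodMk (cd_vec (by fun_prop) (by fun_prop) (by fun_prop))

/-- directional derivative along a line. -/
lemma fderiv_eq_of_line {F : ℝ × E3 → ℝ} {y v : ℝ × E3} {d : ℝ} (hF : DifferentiableAt ℝ F y)
    (h : HasDerivAt (fun s : ℝ => F (y + s • v)) d 0) : fderiv ℝ F y v = d := by
  have h1 : HasDerivAt (fun s : ℝ => y + s • v) v 0 := by
    simpa using ((hasDerivAt_id (0 : ℝ)).smul_const v).const_add y
  have h2 : HasFDerivAt F (fderiv ℝ F y) (y + (0 : ℝ) • v) := by simpa using hF.hasFDerivAt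
  exact (h2.comp_hasDerivAt (0 : ℝ) h1).unique h

lemma bet_left (e : ℝ) {y : ℝ × E3} (h : y.1 < 1 / 3) :
    bet e y = 1 + 2 * e * (1 - y.1 * y.2 2) := by
  simp only [bet, betF, G2F, DF, A2F, x1F, zeF, m0_left h.le, m1_left h, m2_left h, m3_left h,
    sig_left h]
  ring

lemma bet_right (e : ℝ) {y : ℝ × E3} (h : 2 / 3 < y.1) :
    bet e y = -(1 + 2 * e * (1 - (1 - y.1) * y.2 2)) := by
  simp only [bet, betF, G2F, DF, A2F, x1F, zeF, m0_right h.le, m1_right h, m2_right h, m3_right h,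
    sig_right h]
  ring

lemma ff_left (e : ℝ) {y : ℝ × E3} (h : y.1 < 1 / 3) :
    ff e y = (1 + 2 * e * (1 - y.1 * y.2 2)) * (1 + y.2 1) -
      2 * e * y.1 * (1 - y.1 * y.2 2) * (1 + y.2 1) ^ 2 / (y.1 + y.2 0) - 1 := by
  have hb := bet_left e h
  unfold bet at hb
  simp only [ff, fF, hb, G1F, G2F, DF, A1F, A2F, x1F, zeF, ZF, w1F, wF, m0_left h.le, m1_left h,
    m2_left h, m3_left h, sig_left h]
  ring

lemma ff_right (e : ℝ) {y : ℝ × E3} (h : 2 / 3 < y.1) :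
    ff e y = (1 + 2 * e * (1 - (1 - y.1) * y.2 2)) * (1 - y.2 1) +
      2 * e * (1 - y.1) * (1 - (1 - y.1) * y.2 2) * (1 - y.2 1) ^ 2 / (y.1 - y.2 0) + 1 := by
  have hb := bet_right e h
  unfold bet at hb
  simp only [ff, fF, hb, G1F, G2F, DF, A1F, A2F, x1F, zeF, ZF, w1F, wF, m0_right h.le, m1_right h,
    m2_right h, m3_right h, sig_right h]
  ring

end Crest.Agent.N207.S.Ga
end
end

-- ▼ part N207/S/Ga/Sys

/-!
Row 207, S0320, block GAUGE (helper66): the system `sys q b` for block EX.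
-/

set_option autoImplicit false

open Set Filter
open scoped Topology ContDiff

noncomputable section
namespace Crest.Agent.N207.S.Ga

lemma ev_line_lt {y v : ℝ × E3} {c : ℝ} (h : y.1 < c) :
    ∀ᶠ s : ℝ in 𝓝 0, (y + s • v).1 < c := by
  have : ContinuousAt (fun s : ℝ => (y + s • v).1) 0 := by fun_prop
  exact this.eventually (gt_mem_nhds (by simpa using h))

lemma ev_line_gt {y v : ℝ × E3} {c : ℝ} (h : c < y.1) :
    ∀ᶠ s : ℝ in 𝓝 0, c < (y + s • v).1 := by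
  have : ContinuousAt (fun s : ℝ => (y + s • v).1) 0 := by fun_prop
  exact this.eventually (lt_mem_nhds (by simpa using h))

lemma Dt_bet_left (e : ℝ) {y : ℝ × E3} (hy : y ∈ Om) (h : y.1 < 1 / 3) (p : E3) :
    Dt (bet e) y p = -(2 * e * (y.2 2 + y.1 * p 2)) := by
  refine fderiv_eq_of_line ((cd_bet e hy).differentiableAt (by simp)) ?_
  have h1 : HasDerivAt (fun s : ℝ => 1 + 2 * e * (1 - (y.1 + s) * (y.2 2 + s * p 2)))
      (-(2 * e * (y.2 2 + y.1 * p 2))) 0 := by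
    have := (((((hasDerivAt_id (0 : ℝ)).const_add y.1).mul
      (((hasDerivAt_id (0 : ℝ)).mul_const (p 2)).const_add (y.2 2))).const_sub 1).const_mul
        (2 * e)).const_add 1
    exact HasDerivAt.congr_deriv this (by simp only [id]; ring)
  refine h1.congr_of_eventuallyEq ?_
  filter_upwards [ev_line_lt (v := (1, !₂[y.2 1, p 1, p 2])) h] with s hs
  rw [bet_left e hs]
  simp

lemma Dt_bet_right (e : ℝ) {y : ℝ × E3} (hy : y ∈ Om) (h : 2 / 3 < y.1) (p : E3) :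
    Dt (bet e) y p = -(2 * e * (y.2 2 - (1 - y.1) * p 2)) := by
  refine fderiv_eq_of_line ((cd_bet e hy).differentiableAt (by simp)) ?_
  have h1 : HasDerivAt (fun s : ℝ => -(1 + 2 * e * (1 - (1 - (y.1 + s)) * (y.2 2 + s * p 2))))
      (-(2 * e * (y.2 2 - (1 - y.1) * p 2))) 0 := by
    have := (((((((hasDerivAt_id (0 : ℝ)).const_add y.1).const_sub 1).mul
      (((hasDerivAt_id (0 : ℝ)).mul_const (p 2)).const_add (y.2 2))).const_sub 1).const_mul
        (2 * e)).const_add 1).neg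
    exact HasDerivAt.congr_deriv this (by simp only [id]; ring)
  refine h1.congr_of_eventuallyEq ?_
  filter_upwards [ev_line_gt (v := (1, !₂[y.2 1, p 1, p 2])) h] with s hs
  rw [bet_right e hs]
  simp

lemma agree_g {e : ℝ} (he : 0 < e) :
    Agree (fun z : (ℝ × E3) × E3 => z.1.1) (Om ×ˢ univ) (g0 e) (gm e) (g1 e) where
  e0 := by
    rintro ⟨y, p⟩ ⟨hy, -⟩ h0 h
    simp only at h0 h hy
    have hw := hy.1
    simp only [wF, m1_left h, one_mul] at hw
    simp only [g0, gm, gxF, gmF, Dt_bet_left e hy h, bet_left e h, ZF, Z1F, zeF, w1F, wF, x1F,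
      m0_left h.le, m1_left h, m2_left h, sig_left h, one_mul]
    field_simp
    ring
  e1 := by
    rintro ⟨y, p⟩ ⟨hy, -⟩ h h1
    simp only at h1 h hy
    have hw := hy.1
    simp only [wF, m1_right h, neg_mul, one_mul, ← sub_eq_add_neg] at hw
    have h2 : 1 - y.1 ≠ 0 := by linarith
    simp only [g1, gm, gxF, gmF, Dt_bet_right e hy h, bet_right e h, ZF, Z1F, zeF, w1F, wF, x1F,
      m0_right h.le, m1_right h, m2_right h, sig_right h, neg_mul, one_mul, ← sub_eq_add_neg]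
    field_simp
    ring

lemma isOpen_OmU : IsOpen (Om ×ˢ (univ : Set E3)) := isOpen_Om.prod isOpen_univ

lemma cd_gg {e : ℝ} (he : 0 < e) {z : (ℝ × E3) × E3} (hz : z ∈ Om ×ˢ (univ : Set E3)) :
    ContDiffAt ℝ ∞ (gg e) z := by
  refine contDiffOn_patch (by fun_prop) isOpen_OmU (agree_g he) ?_ ?_ ?_ hz
  · intro p hp h
    have hw := hp.1.1
    simp only [wF, m1_left h, one_mul] at hw
    have := (pow_pos hw 2).ne'
    unfold g0 gxF
    fun_prop (disch := assumption)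
  · intro p hp h h'
    have h0 := contDiff_m0
    have h1 := contDiff_m1
    have h2 := contDiff_m2
    have h4 := contDiff_sig
    have a1 := hp.1.1.ne'
    have a2 := hp.1.2.2.1.ne'
    have a3 : 2 * e * m0 p.1.1 ^ 2 ≠ 0 := (mul_pos (by linarith) (pow_pos (m0_pos h h') 2)).ne'
    have b1 : ContDiffAt ℝ ∞ (fun z : (ℝ × E3) × E3 => bet e z.1) p :=
      (cd_bet e hp.1).comp p contDiffAt_fst
    have b2 := cd_Dt (z := p) (cd_bet e hp.1)
    unfold wF at a1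
    unfold gm gmF ZF Z1F zeF w1F wF x1F
    fun_prop (disch := assumption)
  · intro p hp h
    have hw := hp.1.1
    simp only [wF, m1_right h, neg_mul, one_mul, ← sub_eq_add_neg] at hw
    have := (pow_pos hw 2).ne'
    unfold g1 gxF
    fun_prop (disch := assumption)

lemma gg_left {e : ℝ} (he : 0 < e) {y : ℝ × E3} (hy : y ∈ Om) (h : y.1 < 1 / 3) (p : E3) :
    gg e (y, p) = gxF e y.1 (y.1 + y.2 0) (1 + y.2 1) (y.2 2) (p 2) :=
  patch_left (agree_g he) (p := (y, p)) ⟨hy, mem_univ _⟩ h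

lemma gg_right {e : ℝ} (he : 0 < e) {y : ℝ × E3} (hy : y ∈ Om) (h : 2 / 3 < y.1) (p : E3) :
    gg e (y, p) = gxF e (1 - y.1) (y.1 - y.2 0) (y.2 1 - 1) (y.2 2) (-p 2) :=
  patch_right (agree_g he) (p := (y, p)) ⟨hy, mem_univ _⟩ h

lemma gg_mid {e : ℝ} (he : 0 < e) {y : ℝ × E3} (hy : y ∈ Om) (h0 : 0 < y.1) (h1 : y.1 < 1)
    (p : E3) : gg e (y, p) = gmF e y.1 (y.2 0) (y.2 1) (y.2 2) (p 2) (bet e y) (Dt (bet e) y p) :=
  patch_mid (agree_g he) (p := (y, p)) ⟨hy, mem_univ _⟩ h0 h1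

lemma cd_Psi {e : ℝ} (he : 0 < e) (b : ℕ) {z : (ℝ × E3) × E3} (hz : z ∈ Om ×ˢ (univ : Set E3)) :
    ContDiffAt ℝ ∞ (Psi e b) z := by
  have h0 := contDiff_m0
  have h1 := contDiff_m1
  have h2 := contDiff_aa e
  have b1 : ContDiffAt ℝ ∞ (fun z : (ℝ × E3) × E3 => ff e z.1) z :=
    (cd_ff e hz.1).comp z contDiffAt_fst
  have b2 := cd_Dt (z := z) (cd_ff e hz.1)
  refine cd_vec ?_ ?_ (cd_gg he hz)
  · fun_prop
  · unfold Z1F; fun_prop

lemma Dt_sub (F : ℝ × E3 → ℝ) (y : ℝ × E3) (p : E3) :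
    Dt F y p = Dt F y 0 + fderiv ℝ F y (0, !₂[0, p 1, p 2]) := by
  unfold Dt
  rw [← map_add]
  congr 1
  ext i
  · simp
  · fin_cases i <;> simp

lemma fd_ff_zero (e : ℝ) {u : E3} (hy : ((0 : ℝ), u) ∈ Om) (p : E3) :
    fderiv ℝ (ff e) (0, u) (0, !₂[0, p 1, p 2]) = (1 + 2 * e) * p 1 := by
  refine fderiv_eq_of_line ((cd_ff e hy).differentiableAt (by simp)) ?_
  have h1 : HasDerivAt (fun s : ℝ => (1 + 2 * e) * (1 + (u 1 + s * p 1)) - 1)
      ((1 + 2 * e) * p 1) 0 := by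
    have := (((((hasDerivAt_id (0 : ℝ)).mul_const (p 1)).const_add (u 1)).const_add 1).const_mul
      (1 + 2 * e)).sub_const 1
    exact HasDerivAt.congr_deriv this (by ring)
  convert h1 using 2 with s
  rw [ff_left e (by simp)]
  simp

lemma fd_ff_one (e : ℝ) {u : E3} (hy : ((1 : ℝ), u) ∈ Om) (p : E3) :
    fderiv ℝ (ff e) (1, u) (0, !₂[0, p 1, p 2]) = -((1 + 2 * e) * p 1) := by
  refine fderiv_eq_of_line ((cd_ff e hy).differentiableAt (by simp)) ?_
  have h1 : HasDerivAt (fun s : ℝ => (1 + 2 * e) * (1 - (u 1 + s * p 1)) + 1)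
      (-((1 + 2 * e) * p 1)) 0 := by
    have := (((((hasDerivAt_id (0 : ℝ)).mul_const (p 1)).const_add (u 1)).const_sub 1).const_mul
      (1 + 2 * e)).add_const 1
    exact HasDerivAt.congr_deriv this (by ring)
  convert h1 using 2 with s
  rw [ff_right e (by simp; norm_num)]
  simp

lemma aa_zero (e : ℝ) (u : E3) : aa e (0, u) = 2 * e := by
  simp [aa, nu_left (x := 0) (by norm_num), m0_left (x := 0) (by norm_num)]

lemma aa_one (e : ℝ) (u : E3) : aa e (1, u) = 2 * e := by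
  simp [aa, nu_right (x := 1) (by norm_num), m0_right (x := 1) (by norm_num)]

/-- the relation between `e = 1/(q-1)` and `b = (q+3)/2`. -/
def Rel (e : ℝ) (b : ℕ) : Prop := 0 < e ∧ 2 * e * b = 1 + 4 * e

/-- The system of the global gauge. -/
def sys {e : ℝ} {b : ℕ} (h : Rel e b) : Ex.Sys E3 where
  b := b
  hb := by
    rcases Nat.eq_zero_or_pos b with h0 | h0
    · have := h.2
      rw [h0] at this
      simp only [Nat.cast_zero, mul_zero] at this
      linarith [h.1]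
    · exact h0
  Om := Om
  isOpen := isOpen_Om
  a := aa e
  Psi := Psi e b
  ha := (contDiff_aa e).contDiffOn
  hPsi := fun z hz => (cd_Psi h.1 b hz).contDiffWithinAt
  apos := fun y hy => aa_pos h.1 hy
  pole0 := by
    intro u p hu
    have hm : m0 0 = 0 := m0_left (by norm_num)
    have hm1 : m1 0 = 1 := m1_left (by norm_num)
    rw [aa_zero, h.2]
    ext i
    fin_cases i
    · simp [Psi, aa_zero, h.2]; ring
    · simp [Psi, Z1F, hm, hm1, Dt_sub (ff e) (0, u) p, fd_ff_zero e hu]; ring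
    · simp [Psi, gg_left h.1 hu, gxF]; ring
  pole1 := by
    intro u p hu
    have hm : m0 1 = 0 := by rw [m0_right (by norm_num)]; norm_num
    have hm1 : m1 1 = -1 := m1_right (by norm_num)
    have h3 : (2 / 3 : ℝ) < ((1 : ℝ), u).1 := by norm_num
    rw [aa_one, h.2]
    ext i
    fin_cases i
    · simp [Psi, aa_one, h.2]; ring
    · simp [Psi, Z1F, hm, hm1, Dt_sub (ff e) (1, u) p, fd_ff_one e hu]; ring
    · simp [Psi, gg_right h.1 hu h3, gxF]; ring

/-- `e = 1/(q-1)` for `q + 3 = 2b`. -/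
lemma rel_of {q b : ℕ} (hq : 2 ≤ q) (h : q + 3 = 2 * b) : Rel (1 / ((q : ℝ) - 1)) b := by
  have h1 : (2 : ℝ) ≤ q := by exact_mod_cast hq
  have h2 : (q : ℝ) + 3 = 2 * b := by exact_mod_cast h
  have h3 : (q : ℝ) - 1 ≠ 0 := by linarith
  refine ⟨one_div_pos.2 (by linarith), ?_⟩
  field_simp
  linarith

end Crest.Agent.N207.S.Ga
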