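import Crest.Agent.N207.S.Ga.X
import Crest.Agent.N207.S.GDefs

-- ▼ part N207/S/Ga/Alg
section

/-!
Row 207, S0320, block GAUGE (helper66): from the reduced equations to `Geo.Eqs`, and the
functions `W, X, z, Y, v` as smooth functions of the 1-jet.
-/

set_option autoImplicit false

open Set Filter
open scoped Topology ContDiff

noncomputable section
namespace Crest.Agent.N207.S.Ga

lemma deriv2_of {f f1 : ℝ → ℝ} {f2 ξ : ℝ} (h1 : ∀ᶠ y in 𝓝 ξ, HasDerivAt f (f1 y) y)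
    (h2 : HasDerivAt f1 f2 ξ) : deriv f ξ = f1 ξ ∧ deriv (deriv f) ξ = f2 := by
  refine ⟨h1.self_of_nhds.deriv, ?_⟩
  have : deriv f =ᶠ[𝓝 ξ] f1 := h1.mono fun y hy => hy.deriv
  rw [this.deriv_eq, h2.deriv]

/-- scalar curvature as a function of the jets. -/
def RF (q : ℕ) (W W1 W2 P P1 P2 Z Z1 : ℝ) : ℝ :=
  2 * Geo.ra q W W1 W2 P P1 Z Z1 + q * Geo.rb q W W1 P P1 P2 Z Z1 + Geo.rc q W W1 W2 P P1 P2 Z Z1

theorem eqs_of {q : ℕ} {N : ℝ} (hq : (q : ℝ) = N + 1) (hN : N ≠ 0) {W P Z V : ℝ → ℝ → ℝ}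
    {t ξ : ℝ} {w w1 x x1 Z1 β : ℝ → ℝ} {w2 x2 Z2 β1 wt xt Zt : ℝ}
    (eW : W t = fun y => 2 * w y) (eP : P t = fun y => 2 * N * x y)
    (dw : ∀ᶠ y in 𝓝 ξ, HasDerivAt w (w1 y) y) (dw1 : HasDerivAt w1 w2 ξ)
    (dx : ∀ᶠ y in 𝓝 ξ, HasDerivAt x (x1 y) y) (dx1 : HasDerivAt x1 x2 ξ)
    (dZ : ∀ᶠ y in 𝓝 ξ, HasDerivAt (Z t) (Z1 y) y) (dZ1 : HasDerivAt Z1 Z2 ξ)
    (dβ : HasDerivAt β β1 ξ)
    (eV : V t =ᶠ[𝓝 ξ] fun y => Z1 y / 2 + Z t y * w1 y / w y + q / 2 * (Z t y * x1 y / x y) - β y)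
    (tW : HasDerivAt (fun s => W s ξ) (2 * wt) t) (tP : HasDerivAt (fun s => P s ξ) (2 * N * xt) t)
    (tZ : HasDerivAt (fun s => Z s ξ) Zt t) (w0 : w ξ ≠ 0) (x0 : x ξ ≠ 0)
    (E1 : wt = Z t ξ * w2 + β ξ * w1 ξ - Z t ξ * w1 ξ ^ 2 / w ξ - 1)
    (E2 : xt = Z t ξ * x2 + β ξ * x1 ξ - Z t ξ * x1 ξ ^ 2 / x ξ - 1)
    (E3 : Zt = Z t ξ * Z2 + β ξ * Z1 ξ - Z1 ξ ^ 2 / 2 - 2 * Z t ξ * β1 -
      Z t ξ ^ 2 * (w1 ξ / w ξ) ^ 2 - q / 2 * (Z t ξ * x1 ξ / x ξ) ^ 2) :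
    Geo.Eqs q W P Z V t ξ ∧ Geo.fR q (W t) (P t) (Z t) ξ =
      RF q (2 * w ξ) (2 * w1 ξ) (2 * w2) (2 * N * x ξ) (2 * N * x1 ξ) (2 * N * x2) (Z t ξ) (Z1 ξ) := by
  obtain ⟨a1, a2⟩ := deriv2_of (f := W t) (f1 := fun y => 2 * w1 y)
    (dw.mono fun y hy => eW ▸ hy.const_mul 2) (dw1.const_mul 2)
  obtain ⟨b1, b2⟩ := deriv2_of (f := P t) (f1 := fun y => 2 * N * x1 y)
    (dx.mono fun y hy => eP ▸ hy.const_mul (2 * N)) (dx1.const_mul (2 * N))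
  have c0 := dZ.self_of_nhds
  have c1 := c0.deriv
  have a0 : W t ξ = 2 * w ξ := by rw [eW]
  have b0 : P t ξ = 2 * N * x ξ := by rw [eP]
  have v0 := eV.self_of_nhds
  have v1 := (((((dZ1.div_const 2).add ((c0.mul dw1).div dw.self_of_nhds w0)).add
    (((c0.mul dx1).div dx.self_of_nhds x0).const_mul ((q : ℝ) / 2))).sub dβ).congr_of_eventuallyEq
      eV).deriv
  simp only [Pi.mul_apply] at v0 v1
  refine ⟨⟨?_, ?_, ?_⟩, ?_⟩
  · simp only [Geo.fa, Geo.ra, Geo.kS, Geo.kT, Geo.kX, tW.deriv, a0, a1, a2, b0, b1, c1, v0, E1]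
    field_simp
    ring
  · simp only [Geo.fb, Geo.rb, Geo.kS, Geo.kT, Geo.kX, tP.deriv, a0, a1, b0, b1, b2, c1, v0, E2, hq]
    field_simp
    ring
  · simp only [Geo.fc, Geo.rc, Geo.kS, tZ.deriv, a0, a1, a2, b0, b1, b2, c1, v0, v1, E3]
    field_simp
    ring
  · simp only [Geo.fR, Geo.fa, Geo.fb, Geo.fc, RF, a0, a1, a2, b0, b1, b2, c1]

lemma cont_RF {F : Type*} [TopologicalSpace F] (q : ℕ) {W W1 W2 P P1 P2 Z Z1 : F → ℝ} {z : F}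
    (a0 : ContinuousAt W z) (a1 : ContinuousAt W1 z) (a2 : ContinuousAt W2 z)
    (b0 : ContinuousAt P z) (b1 : ContinuousAt P1 z) (b2 : ContinuousAt P2 z)
    (c0 : ContinuousAt Z z) (c1 : ContinuousAt Z1 z) (hW : W z ≠ 0) (hP : P z ≠ 0) :
    ContinuousAt (fun z => RF q (W z) (W1 z) (W2 z) (P z) (P1 z) (P2 z) (Z z) (Z1 z)) z := by
  have h1 : 2 * W z ≠ 0 := by positivity
  have h2 : 4 * W z ^ 2 ≠ 0 := by positivity
  have h3 : 2 * P z ≠ 0 := by positivity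
  have h4 : 4 * P z ^ 2 ≠ 0 := by positivity
  have h5 : 4 * W z * P z ≠ 0 := by positivity
  unfold RF Geo.ra Geo.rb Geo.rc Geo.kS Geo.kT Geo.kX
  fun_prop (disch := assumption)

lemma cont_scal {F : Type*} [TopologicalSpace F] (e : ℝ) {x w0 w1 w2 k0 k1 : F → ℝ} {z : F}
    (a0 : ContinuousAt x z) (a1 : ContinuousAt w0 z) (a2 : ContinuousAt w1 z)
    (b0 : ContinuousAt w2 z) (b1 : ContinuousAt k0 z) (b2 : ContinuousAt k1 z) (hW : w0 z ≠ 0) :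
    ContinuousAt (fun z => scal e (x z) (w0 z) (w1 z) (w2 z) (k0 z) (k1 z)) z := by
  have h1 : 2 * w0 z ≠ 0 := by positivity
  have h2 : 4 * w0 z ^ 2 ≠ 0 := by positivity
  unfold scal ricA ricB ricC kSF
  fun_prop (disch := assumption)

/-- the scalar curvature in the global gauge, `h2 = η''`, `k1 = k'`. -/
def Rm (q : ℕ) (e : ℝ) (y : ℝ × E3) (h2 k1 : ℝ) : ℝ :=
  RF q (2 * wF y.1 (y.2 0)) (2 * w1F y.1 (y.2 0) (y.2 1)) (2 * (m1 y.1 * h2 + A1F y.1 (y.2 0) (y.2 1)))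
    (2 * (1 / e) * xF y.1 (y.2 0)) (2 * (1 / e) * x1F y.1 (y.2 0) (y.2 1))
    (2 * (1 / e) * ((m1 y.1 ^ 2 - 1) * h2 + A2F y.1 (y.2 0) (y.2 1)))
    (ZF e y.1 (y.2 2)) (Z1F e y.1 (y.2 2) k1)

lemma Rm_left {q : ℕ} {e : ℝ} (he : 0 < e) (hq : (q : ℝ) = 1 / e + 1) {y : ℝ × E3} (hy : y ∈ Om)
    (h0 : 0 < y.1) (h : y.1 < 1 / 3) (h2 k1 : ℝ) :
    Rm q e y h2 k1 = scal e y.1 (y.1 + y.2 0) (1 + y.2 1) h2 (y.2 2) k1 := by
  have hw := hy.1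
  simp only [wF, m1_left h, one_mul] at hw
  simp only [Rm, RF, Geo.ra, Geo.rb, Geo.rc, Geo.kS, Geo.kT, Geo.kX, scal, ricA, ricB, ricC, kSF,
    wF, w1F, xF, x1F, A1F, A2F, ZF, Z1F, m0_left h.le, m1_left h, m2_left h, m3_left h, sig_left h,
    hq, one_mul]
  field_simp
  ring

lemma Rm_right {q : ℕ} {e : ℝ} (he : 0 < e) (hq : (q : ℝ) = 1 / e + 1) {y : ℝ × E3} (hy : y ∈ Om)
    (h : 2 / 3 < y.1) (h1 : y.1 < 1) (h2 k1 : ℝ) :
    Rm q e y h2 k1 = scal e (1 - y.1) (y.1 - y.2 0) (y.2 1 - 1) (-h2) (y.2 2) (-k1) := by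
  have hw := hy.1
  simp only [wF, m1_right h, neg_mul, one_mul, ← sub_eq_add_neg] at hw
  have h3 : 1 - y.1 ≠ 0 := by linarith
  simp only [Rm, RF, Geo.ra, Geo.rb, Geo.rc, Geo.kS, Geo.kT, Geo.kX, scal, ricA, ricB, ricC, kSF,
    wF, w1F, xF, x1F, A1F, A2F, ZF, Z1F, m0_right h.le, m1_right h, m2_right h, m3_right h,
    sig_right h, hq, neg_mul, one_mul, ← sub_eq_add_neg]
  field_simp
  ring

lemma xF_pos {y : ℝ × E3} (hy : y ∈ Om) (h0 : 0 < y.1) (h1 : y.1 < 1) : 0 < xF y.1 (y.2 0) :=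
  mul_pos (m0_pos h0 h1) hy.2.2.1

/-- the scalar curvature is bounded on the compact sets away from `ξ = 0`. -/
theorem Rm_bound {q : ℕ} {e : ℝ} (he : 0 < e) (hq : (q : ℝ) = 1 / e + 1) {xs : ℝ} (hxs : 0 < xs)
    {K : Set (ℝ × E3)} (hKc : IsCompact K) (hKO : K ⊆ Om) (C : ℝ) :
    ∃ B : ℝ, ∀ y ∈ K, xs ≤ y.1 → y.1 < 1 → ∀ h2 k1 : ℝ,
      |h2| ≤ C → |k1| ≤ C → |Rm q e y h2 k1| ≤ B := by
  have h0 := contDiff_m0.continuous
  have h1 := contDiff_m1.continuous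
  have h2 := contDiff_m2.continuous
  have h3 := contDiff_m3.continuous
  have h4 := contDiff_sig.continuous
  have hK : IsCompact (K ×ˢ (Icc (-C) C ×ˢ Icc (-C) C)) :=
    hKc.prod (isCompact_Icc.prod isCompact_Icc)
  have c1 : IsClosed {z : (ℝ × E3) × ℝ × ℝ | z.1.1 ∈ Icc xs (3 / 4)} :=
    isClosed_Icc.preimage (f := fun z : (ℝ × E3) × ℝ × ℝ => z.1.1) (by fun_prop)
  have c2 : IsClosed {z : (ℝ × E3) × ℝ × ℝ | 3 / 4 ≤ z.1.1} :=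
    isClosed_le continuous_const (by fun_prop)
  obtain ⟨B1, hB1⟩ := (hK.inter_right c1).exists_bound_of_continuousOn
    (f := fun z => Rm q e z.1 z.2.1 z.2.2) (fun z hz => ContinuousAt.continuousWithinAt (by
      have hy := hKO hz.1.1
      have hx := xF_pos hy (hxs.trans_le hz.2.1) (by linarith [hz.2.2])
      have hw := hy.1
      unfold Rm
      refine cont_RF q ?_ ?_ ?_ ?_ ?_ ?_ ?_ ?_ (by positivity) (by positivity)
      all_goals simp only [wF, w1F, xF, x1F, A1F, A2F, ZF, Z1F]; fun_prop))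
  obtain ⟨B2, hB2⟩ := (hK.inter_right c2).exists_bound_of_continuousOn
    (f := fun z => scal e (1 - z.1.1) (z.1.1 - z.1.2 0) (z.1.2 1 - 1) (-z.2.1) (z.1.2 2) (-z.2.2))
    (fun z hz => ContinuousAt.continuousWithinAt (by
      have hw := (hKO hz.1.1).1
      have h : 2 / 3 < z.1.1 := by have : 3 / 4 ≤ z.1.1 := hz.2; linarith
      simp only [wF, m1_right h, neg_mul, one_mul, ← sub_eq_add_neg] at hw
      exact cont_scal e (by fun_prop) (by fun_prop) (by fun_prop) (by fun_prop) (by fun_prop)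
        (by fun_prop) hw.ne'))
  refine ⟨max B1 B2, fun y hy a b h2 k1 c d => ?_⟩
  rcases le_total y.1 (3 / 4) with f | f
  · exact (hB1 (y, h2, k1) ⟨⟨hy, abs_le.1 c, abs_le.1 d⟩, a, f⟩).trans (le_max_left _ _)
  · rw [Rm_right he hq (hKO hy) (by linarith) b]
    exact (hB2 (y, h2, k1) ⟨⟨hy, abs_le.1 c, abs_le.1 d⟩, f⟩).trans (le_max_right _ _)

/-! ### the five functions -/

def GW (z : (ℝ × E3) × E3) : ℝ := 2 * wF z.1.1 (z.1.2 0)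
def GX (e : ℝ) (z : (ℝ × E3) × E3) : ℝ := 1 / e * nu z.1.1 * (1 - sig z.1.1 * z.1.2 0) / 2
def Gz (e : ℝ) (z : (ℝ × E3) × E3) : ℝ := aa e z.1
def Y0 (z : (ℝ × E3) × E3) : ℝ := (z.1.1 - 2 + z.1.2 2) / (1 - z.1.1) ^ 3
def Y1 (z : (ℝ × E3) × E3) : ℝ := (z.1.2 2 - 1 - z.1.1) / z.1.1 ^ 3
def Ym (e : ℝ) (z : (ℝ × E3) × E3) : ℝ := (1 - GX e z * Gz e z) / (z.1.1 * (1 - z.1.1))
def GY (e : ℝ) : (ℝ × E3) × E3 → ℝ := patch (fun z => z.1.1) Y0 (Ym e) Y1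
/-- the material velocity. -/
def VF (e : ℝ) (z : (ℝ × E3) × E3) : ℝ :=
  Z1F e z.1.1 (z.1.2 2) (z.2 2) / 2 +
    ZF e z.1.1 (z.1.2 2) * w1F z.1.1 (z.1.2 0) (z.1.2 1) / wF z.1.1 (z.1.2 0) +
    (1 / e + 1) / 2 * (ZF e z.1.1 (z.1.2 2) * x1F z.1.1 (z.1.2 0) (z.1.2 1) / xF z.1.1 (z.1.2 0)) -
    bet e z.1
def v0 (e : ℝ) (z : (ℝ × E3) × E3) : ℝ :=
  (-z.1.2 2 - e * (z.1.2 2 + z.1.1 * z.2 2) +
    2 * e * (1 - z.1.1 * z.1.2 2) * (1 + z.1.2 1) / (z.1.1 + z.1.2 0)) / (1 - z.1.1)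
def v1 (e : ℝ) (z : (ℝ × E3) × E3) : ℝ :=
  (z.1.2 2 + e * (z.1.2 2 - (1 - z.1.1) * z.2 2) +
    2 * e * (1 - (1 - z.1.1) * z.1.2 2) * (1 - z.1.2 1) / (z.1.1 - z.1.2 0)) / z.1.1
def vm (e : ℝ) (z : (ℝ × E3) × E3) : ℝ := VF e z / (z.1.1 * (1 - z.1.1))
def Gv (e : ℝ) : (ℝ × E3) × E3 → ℝ := patch (fun z => z.1.1) (v0 e) (vm e) (v1 e)

lemma cd_GW : ContDiff ℝ ∞ GW := by
  have := contDiff_m1
  unfold GW wF; fun_prop

lemma cd_GX (e : ℝ) : ContDiff ℝ ∞ (GX e) := by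
  have := contDiff_nu
  have := contDiff_sig
  unfold GX; fun_prop

lemma cd_Gz (e : ℝ) : ContDiff ℝ ∞ (Gz e) := (contDiff_aa e).comp contDiff_fst

lemma agree_Y {e : ℝ} (he : 0 < e) :
    Agree (fun z : (ℝ × E3) × E3 => z.1.1) (Om ×ˢ univ) Y0 (Ym e) Y1 where
  e0 := by
    rintro ⟨y, p⟩ - h0 h
    simp only at h0 h
    have : 1 - y.1 ≠ 0 := by linarith
    simp only [Y0, Ym, GX, Gz, aa, nu_left h.le, sig_left h, m0_left h.le]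
    field_simp
    ring
  e1 := by
    rintro ⟨y, p⟩ - h h1
    simp only at h1 h
    have : 1 - y.1 ≠ 0 := by linarith
    have : y.1 ≠ 0 := by linarith
    simp only [Y1, Ym, GX, Gz, aa, nu_right h.le, sig_right h, m0_right h.le]
    field_simp
    ring

lemma cd_GY {e : ℝ} (he : 0 < e) {z : (ℝ × E3) × E3} (hz : z ∈ Om ×ˢ (univ : Set E3)) :
    ContDiffAt ℝ ∞ (GY e) z := by
  refine contDiffOn_patch (by fun_prop) isOpen_OmU (agree_Y he) ?_ ?_ ?_ hz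
  · intro p _ h
    have : (1 - p.1.1) ^ 3 ≠ 0 := pow_ne_zero _ (by linarith)
    unfold Y0
    fun_prop (disch := assumption)
  · intro p _ h h'
    have := cd_GX e
    have := cd_Gz e
    have : p.1.1 * (1 - p.1.1) ≠ 0 := (mul_pos h (sub_pos.2 h')).ne'
    unfold Ym
    fun_prop (disch := assumption)
  · intro p _ h
    have : p.1.1 ^ 3 ≠ 0 := pow_ne_zero _ (by linarith)
    unfold Y1
    fun_prop (disch := assumption)

lemma GY_pole {e : ℝ} (he : 0 < e) {z : (ℝ × E3) × E3} (hz : z ∈ Om ×ˢ (univ : Set E3))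
    (hx : z.1.1 ∈ Icc (0 : ℝ) 1) : 1 - GX e z * Gz e z = z.1.1 * (1 - z.1.1) * GY e z := by
  rcases hx.1.eq_or_lt with a | a
  · have h : z.1.1 < 1 / 3 := by linarith
    simp only [GX, Gz, aa, nu_left h.le, sig_left h, m0_left h.le]
    rw [← a]
    field_simp
    ring
  rcases hx.2.eq_or_lt with b | b
  · have h : 2 / 3 < z.1.1 := by linarith
    simp only [GX, Gz, aa, nu_right h.le, sig_right h, m0_right h.le]
    rw [b]
    field_simp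
    ring
  · have : z.1.1 * (1 - z.1.1) ≠ 0 := (mul_pos a (sub_pos.2 b)).ne'
    rw [GY, patch_mid (agree_Y he) hz a b, Ym, mul_div_cancel₀ _ this]

lemma agree_v {e : ℝ} (he : 0 < e) :
    Agree (fun z : (ℝ × E3) × E3 => z.1.1) (Om ×ˢ univ) (v0 e) (vm e) (v1 e) where
  e0 := by
    rintro ⟨y, p⟩ ⟨hy, -⟩ h0 h
    simp only at h0 h hy
    have hw := hy.1
    simp only [wF, m1_left h, one_mul] at hw
    have : 1 - y.1 ≠ 0 := by linarith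
    simp only [v0, vm, VF, bet_left e h, ZF, Z1F, w1F, wF, x1F, xF,
      m0_left h.le, m1_left h, m2_left h, sig_left h, one_mul]
    field_simp
    ring
  e1 := by
    rintro ⟨y, p⟩ ⟨hy, -⟩ h h1
    simp only at h1 h hy
    have hw := hy.1
    simp only [wF, m1_right h, neg_mul, one_mul, ← sub_eq_add_neg] at hw
    have : 1 - y.1 ≠ 0 := by linarith
    have : y.1 ≠ 0 := by linarith
    simp only [v1, vm, VF, bet_right e h, ZF, Z1F, w1F, wF, x1F, xF,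
      m0_right h.le, m1_right h, m2_right h, sig_right h, neg_mul, one_mul, ← sub_eq_add_neg]
    field_simp
    ring

lemma cd_Gv {e : ℝ} (he : 0 < e) {z : (ℝ × E3) × E3} (hz : z ∈ Om ×ˢ (univ : Set E3)) :
    ContDiffAt ℝ ∞ (Gv e) z := by
  refine contDiffOn_patch (by fun_prop) isOpen_OmU (agree_v he) ?_ ?_ ?_ hz
  · intro p hp h
    have hw := hp.1.1
    simp only [wF, m1_left h, one_mul] at hw
    have := hw.ne'
    have : 1 - p.1.1 ≠ 0 := by linarith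
    unfold v0
    fun_prop (disch := assumption)
  · intro p hp h h'
    have h0 := contDiff_m0
    have h1 := contDiff_m1
    have h2 := contDiff_m2
    have h4 := contDiff_sig
    have a1 := hp.1.1.ne'
    have a2 := (xF_pos hp.1 h h').ne'
    have : p.1.1 * (1 - p.1.1) ≠ 0 := (mul_pos h (sub_pos.2 h')).ne'
    have b1 : ContDiffAt ℝ ∞ (fun z : (ℝ × E3) × E3 => bet e z.1) p :=
      (cd_bet e hp.1).comp p contDiffAt_fst
    unfold wF at a1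
    unfold xF at a2
    unfold vm VF ZF Z1F w1F wF x1F xF
    fun_prop (disch := assumption)
  · intro p hp h
    have hw := hp.1.1
    simp only [wF, m1_right h, neg_mul, one_mul, ← sub_eq_add_neg] at hw
    have := hw.ne'
    have : p.1.1 ≠ 0 := by linarith
    unfold v1
    fun_prop (disch := assumption)

lemma Gv_mid {e : ℝ} (he : 0 < e) {z : (ℝ × E3) × E3} (hz : z ∈ Om ×ˢ (univ : Set E3))
    (a : 0 < z.1.1) (b : z.1.1 < 1) : 1 * (z.1.1 * (1 - z.1.1)) * Gv e z = VF e z := by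
  have : z.1.1 * (1 - z.1.1) ≠ 0 := (mul_pos a (sub_pos.2 b)).ne'
  rw [Gv, patch_mid (agree_v he) hz a b, vm, one_mul, mul_div_cancel₀ _ this]

lemma xF_eq (x h : ℝ) : xF x h = m0 x + (m1 x ^ 2 - 1) * h := by
  have := sig_mul x
  unfold xF
  linear_combination (-h) * this

lemma cramer1 (e : ℝ) {x h : ℝ} (hD : DF x h ≠ 0) (P k : ℝ) :
    m1 x * fF e x h P k = G1F e x h P k + betF e x h P k * w1F x h P := by
  unfold fF betF w1F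
  field_simp
  unfold DF
  ring

lemma cramer2 (e : ℝ) {x h : ℝ} (hD : DF x h ≠ 0) (P k : ℝ) :
    (m1 x ^ 2 - 1) * fF e x h P k = G2F e x h P k + betF e x h P k * x1F x h P := by
  unfold fF betF x1F
  field_simp
  unfold DF
  ring

end Crest.Agent.N207.S.Ga
end
end

-- ▼ part N207/S/Ga/Top

/-!
Row 207, S0320, block GAUGE (helper66): a solution of `sys` on `[0,T)` gives a `Geo.GaugeSol`.
-/

set_option autoImplicit false

open Set Filter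
open scoped Topology ContDiff

noncomputable section
namespace Crest.Agent.N207.S.Ga

/-- the first jet. -/
def J1 (U : ℝ → ℝ → E3) (t x : ℝ) : E3 := !₂[cj U 0 1 t x, cj U 1 1 t x, cj U 2 1 t x]

/-- a function of the 1-jet evaluated along `U`. -/
def lift (U : ℝ → ℝ → E3) (G : (ℝ × E3) × E3 → ℝ) (t x : ℝ) : ℝ := G ((x, U t x), J1 U t x)

variable {e : ℝ} {b : ℕ} {h : Rel e b} {t0 t1 T : ℝ} {U : ℝ → ℝ → E3}

lemma jet1_eq {S : Ex.Sys E3} (hU : Ex.IsSol S t0 t1 U) {t x : ℝ} (ht : t ∈ Icc t0 t1)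
    (hx : x ∈ Icc (0 : ℝ) 1) : Ex.jet 1 (U t) x = J1 U t x := by
  ext i
  fin_cases i <;> simp [J1, sol_jet hU 1 ht hx]

lemma smC_lift (hU : ∀ t ∈ Ioo 0 T, Ex.IsSol (sys h) 0 t U) {G : (ℝ × E3) × E3 → ℝ}
    (hG : ∀ z ∈ Om ×ˢ (univ : Set E3), ContDiffAt ℝ ∞ G z) : Geo.SmC 0 T (lift U G) := by
  intro p hp
  obtain ⟨s, hs, hs'⟩ := exists_between hp.1.2
  have h0 := hp.1.1.trans hs
  have hS := hU s ⟨h0, hs'⟩
  have hp' : p ∈ Icc 0 s ×ˢ Icc (0 : ℝ) 1 := ⟨⟨hp.1.1.le, hs.le⟩, hp.2⟩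
  have hJ : ContDiffOn ℝ ∞ (fun p : ℝ × ℝ => J1 U p.1 p.2) (Icc 0 s ×ˢ Icc 0 1) := by
    refine contDiffOn_euclidean.2 fun i => ?_
    fin_cases i
    · exact cd_cj h0 hS 0 1
    · exact cd_cj h0 hS 1 1
    · exact cd_cj h0 hS 2 1
  have h1 := ((contDiffOn_snd.prodMk hS.smooth).prodMk hJ) p hp'
  refine (ContDiffAt.comp_contDiffWithinAt p (hG ((p.2, U p.1 p.2), J1 U p.1 p.2)
    ⟨hS.mem _ hp'.1 _ hp'.2, mem_univ _⟩) h1).mono_of_mem_nhdsWithin ?_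
  refine mem_nhdsWithin.2 ⟨Iio s ×ˢ univ, isOpen_Iio.prod isOpen_univ, ⟨hs, mem_univ _⟩, ?_⟩
  exact fun y hy => ⟨⟨hy.2.1.1.le, le_of_lt hy.1.1⟩, hy.2.2⟩

lemma bub_X (e : ℝ) (U : ℝ → ℝ → E3) :
    Geo.bub 4 (lift U (GX e)) = fun t y => 2 * (1 / e) * xF y (U t y 0) := by
  funext t y
  simp only [Geo.bub, lift, GX, xF]
  rw [m0_eq y]
  ring

lemma bub_z (e : ℝ) (U : ℝ → ℝ → E3) :
    Geo.bub 1 (lift U (Gz e)) = fun t y => ZF e y (U t y 2) := by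
  funext t y
  have := aa_mu e (y, U t y)
  simp only [Geo.bub, lift, Gz, Ex.mu] at this ⊢
  rw [← this]
  ring

theorem interior_eqs {q : ℕ} (hq : (q : ℝ) = 1 / e + 1) (h01 : t0 < t1)
    (hU : Ex.IsSol (sys h) t0 t1 U)
    (hP : ∀ t ∈ Icc t0 t1, ∀ x ∈ Icc (0 : ℝ) 1, U t x 1 = cj U 0 1 t x) {t ξ : ℝ}
    (ht : t ∈ Ioo t0 t1) (hξ : ξ ∈ Ioo (0 : ℝ) 1) :
    Geo.Eqs q (lift U GW) (Geo.bub 4 (lift U (GX e))) (Geo.bub 1 (lift U (Gz e)))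
      (Geo.bub 1 (lift U (Gv e))) t ξ ∧
    Geo.fR q (lift U GW t) (Geo.bub 4 (lift U (GX e)) t) (Geo.bub 1 (lift U (Gz e)) t) ξ =
      Rm q e (ξ, U t ξ) (cj U 0 2 t ξ) (cj U 2 1 t ξ) := by
  have he := h.1
  have ht' := Ioo_subset_Icc_self ht
  have hξ' := Ioo_subset_Icc_self hξ
  have ev : ∀ᶠ y in 𝓝 ξ, y ∈ Ioo (0 : ℝ) 1 := Ioo_mem_nhds hξ.1 hξ.2
  have dj : ∀ i j, ∀ y ∈ Ioo (0 : ℝ) 1, HasDerivAt (cj U i j t) (cj U i (j + 1) t y) y :=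
    fun i j y hy => ((jet_sol h01 hU i).dx j t y ht' (Ioo_subset_Icc_self hy)).hasDerivAt
      (Icc_mem_nhds hy.1 hy.2)
  have d0 : ∀ y ∈ Ioo (0 : ℝ) 1, HasDerivAt (fun y => U t y 0) (U t y 1) y := fun y hy => by
    rw [hP t ht' y (Ioo_subset_Icc_self hy)]; exact dj 0 0 y hy
  have d1 : HasDerivAt (fun y => U t y 1) (cj U 0 2 t ξ) ξ := by
    rw [← peq_jet h01 hU ht' (hP t ht') 1 ξ hξ']; exact dj 1 0 ξ hξ
  have dk : ∀ y ∈ Ioo (0 : ℝ) 1, HasDerivAt (fun y => U t y 2) (cj U 2 1 t y) y := dj 2 0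
  have dk1 := dj 2 1 ξ hξ
  have dt : ∀ i, HasDerivAt (fun s => U s ξ i) (ct (sys h) U i 0 t ξ) t := fun i =>
    ((jet_sol h01 hU i).dt 0 t ξ ht' hξ').hasDerivAt (Icc_mem_nhds ht.1 ht.2)
  have hy := hU.mem t ht' ξ hξ'
  have hw : wF ξ (U t ξ 0) ≠ 0 := hy.1.ne'
  have hD : DF ξ (U t ξ 0) ≠ 0 := hy.2.2.2.ne'
  have hs : 1 - sig ξ * U t ξ 0 ≠ 0 := hy.2.2.1.ne'
  have hm : m0 ξ ≠ 0 := (m0_pos hξ.1 hξ.2).ne'
  have hze : zeF e ξ (U t ξ 0) (U t ξ 2) = ZF e ξ (U t ξ 2) / xF ξ (U t ξ 0) := by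
    unfold zeF ZF xF; field_simp
  have c0 : ct (sys h) U 0 0 t ξ = ZF e ξ (U t ξ 2) * cj U 0 2 t ξ +
      fF e ξ (U t ξ 0) (U t ξ 1) (U t ξ 2) := by
    rw [ct0 hU ht' hξ', ← hP t ht' ξ hξ', cj_zero, cj_zero, sub_self, mul_zero, add_zero]; rfl
  have db : HasDerivAt (fun y => bet e (y, U t y)) (Dt (bet e) (ξ, U t ξ) (J1 U t ξ)) ξ := by
    have := (hd_comp hU ht' hξ' ((cd_bet e hy).differentiableAt (by simp))).hasDerivAt
      (Icc_mem_nhds hξ.1 hξ.2)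
    rw [jet1_eq hU ht' hξ'] at this
    simpa [Dt, J1, hP t ht' ξ hξ'] using this
  rw [bub_X, bub_z]
  refine eqs_of (N := 1 / e) hq (by positivity) (w := fun y => wF y (U t y 0))
    (w1 := fun y => w1F y (U t y 0) (U t y 1)) (x := fun y => xF y (U t y 0))
    (x1 := fun y => x1F y (U t y 0) (U t y 1)) (Z1 := fun y => Z1F e y (U t y 2) (cj U 2 1 t y))
    (β := fun y => bet e (y, U t y))
    (Z2 := 2 * e * (m2 ξ - 2 * (m1 ξ ^ 2 + m0 ξ * m2 ξ) * U t ξ 2 - 4 * m0 ξ * m1 ξ * cj U 2 1 t ξ -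
      m0 ξ ^ 2 * cj U 2 2 t ξ))
    (wt := m1 ξ * ct (sys h) U 0 0 t ξ) (xt := (m1 ξ ^ 2 - 1) * ct (sys h) U 0 0 t ξ)
    (Zt := -(2 * e * m0 ξ ^ 2 * ct (sys h) U 2 0 t ξ))
    rfl rfl (ev.mono fun y hy => ?_) ?_ (ev.mono fun y hy => ?_) ?_ (ev.mono fun y hy => ?_) ?_ db
    (ev.mono fun y hy => ?_) ?_ ?_ ?_ hw (xF_pos hy hξ.1 hξ.2).ne' ?_ ?_ ?_
  · refine HasDerivAt.congr_deriv ((hasDerivAt_id y).add ((hd_m1 y).mul (d0 y hy))) ?_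
    simp only [w1F]; ring
  · refine HasDerivAt.congr_deriv ((((hd_m2 ξ).mul (d0 ξ hξ)).const_add 1).add
      ((hd_m1 ξ).mul d1)) ?_
    simp only [A1F]; ring
  · simp only [xF_eq]
    refine HasDerivAt.congr_deriv ((hd_m0 y).add ((((hd_m1 y).pow 2).sub_const 1).mul
      (d0 y hy))) ?_
    simp [x1F]; ring
  · refine HasDerivAt.congr_deriv (((hd_m1 ξ).add
      ((((hd_m1 ξ).const_mul 2).mul (hd_m2 ξ)).mul (d0 ξ hξ))).add
      ((((hd_m1 ξ).pow 2).sub_const 1).mul d1)) ?_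
    simp [A2F]; ring
  · exact hasDerivWithinAt_univ.1 (hd_ZF e (dk y hy).hasDerivWithinAt)
  · refine HasDerivAt.congr_deriv ((((hd_m1 ξ).sub
      ((((hd_m0 ξ).const_mul 2).mul (hd_m1 ξ)).mul (dk ξ hξ))).sub
      (((hd_m0 ξ).pow 2).mul dk1)).const_mul (2 * e)) ?_
    congr 1
    simp; ring
  · have := Gv_mid he (z := ((y, U t y), J1 U t y))
      ⟨hU.mem t ht' y (Ioo_subset_Icc_self hy), mem_univ _⟩ hy.1 hy.2
    simp only [Geo.bub, lift, hq]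
    exact this
  · exact (((dt 0).const_mul (m1 ξ)).const_add ξ).const_mul 2
  · simp only [xF_eq]
    exact (((dt 0).const_mul (m1 ξ ^ 2 - 1)).const_add (m0 ξ)).const_mul _
  · refine HasDerivAt.congr_deriv ((((dt 2).const_mul (m0 ξ)).const_sub 1).const_mul
      (2 * e * m0 ξ)) ?_
    ring
  · have := cramer1 e hD (U t ξ 1) (U t ξ 2)
    simp only [c0, bet]
    rw [mul_add, this, G1F]
    ring
  · have := cramer2 e hD (U t ξ 1) (U t ξ 2)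
    simp only [c0, bet]
    rw [mul_add, this, G2F, hze]
    ring
  · rw [ct2 hU ht' hξ', gg_mid he hy hξ.1 hξ.2, jet1_eq hU ht' hξ', cj_zero]
    have : J1 U t ξ 2 = cj U 2 1 t ξ := rfl
    simp only [gmF, this, hze, hq]
    field_simp
    ring

/-- **Block GAUGE, top statement.** -/
def TopStmt : Prop :=
  ∀ (q b : ℕ) (e : ℝ) (h : Rel e b) (T xs : ℝ) (U : ℝ → ℝ → E3), e = 1 / ((q : ℝ) - 1) → 0 < T →
    0 < xs → xs < 1 / 3 → (∀ t ∈ Ioo 0 T, Ex.IsSol (sys h) 0 t U) →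
    (∀ x ∈ Icc (0 : ℝ) 1, U 0 x 1 = cj U 0 1 0 x) →
    (∃ C, ∀ t ∈ Ioo 0 T, ∀ x ∈ Icc 0 xs,
      |scal e x (wj U 0 t x) (wj U 1 t x) (wj U 2 t x) (cj U 2 0 t x) (cj U 2 1 t x)| ≤ C) →
    (∃ (K : Set (ℝ × E3)) (C : ℝ), IsCompact K ∧ K ⊆ Om ∧ ∀ t ∈ Ioo 0 T, ∀ x ∈ Icc xs 1,
      (x, U t x) ∈ K ∧ |cj U 0 2 t x| ≤ C ∧ |cj U 2 1 t x| ≤ C) →
    Tendsto (fun t => wj U 0 t 0) (𝓝[<] T) (𝓝 0) →
    ∃ W X z Y v, Geo.GaugeSol q 0 T W X z Y v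

theorem topStmt : TopStmt := by
  intro q b e h T xs U hqe hT hxs hxs' hU hi ⟨C1, hC1⟩ ⟨K, C, hK, hKO, hC⟩ htip
  have he := h.1
  have hq : (q : ℝ) = 1 / e + 1 := by rw [hqe, one_div_one_div]; ring
  have win : ∀ t ∈ Ioo 0 T, ∃ s, t < s ∧ Ex.IsSol (sys h) 0 s U ∧
      ∀ t ∈ Icc 0 s, ∀ x ∈ Icc (0 : ℝ) 1, U t x 1 = cj U 0 1 t x := fun t ht => by
    obtain ⟨s, hs, hs'⟩ := exists_between ht.2
    exact ⟨s, hs, hU s ⟨ht.1.trans hs, hs'⟩, peq0 (ht.1.trans hs) (hU s ⟨ht.1.trans hs, hs'⟩) hi⟩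
  have mem : ∀ t ∈ Ioo 0 T, ∀ x ∈ Icc (0 : ℝ) 1, (x, U t x) ∈ Om := fun t ht x hx =>
    (hU t ht).mem t ⟨ht.1.le, le_rfl⟩ x hx
  obtain ⟨B, hB⟩ := Rm_bound he hq hxs hK hKO C
  refine ⟨lift U GW, lift U (GX e), lift U (Gz e), lift U (GY e), lift U (Gv e), hT,
    smC_lift hU fun _ _ => cd_GW.contDiffAt, smC_lift hU fun _ _ => (cd_GX e).contDiffAt,
    smC_lift hU fun _ _ => (cd_Gz e).contDiffAt, smC_lift hU fun _ hz => cd_GY he hz,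
    smC_lift hU fun _ hz => cd_Gv he hz, fun t ht x hx => mul_pos two_pos (mem t ht x hx).1,
    fun t ht x hx => ?_, fun t ht x hx => aa_pos he (mem t ht x hx),
    fun t ht x hx => GY_pole he (z := ((x, U t x), J1 U t x)) ⟨mem t ht x hx, mem_univ _⟩ hx,
    fun t ht x hx => ?_, ⟨max C1 B, fun t ht x hx => ?_⟩, ?_⟩
  · exact div_pos (mul_pos (mul_pos (by positivity) (nu_pos x)) (mem t ht x hx).2.2.1) two_pos
  · obtain ⟨s, hs, hS, hP⟩ := win t ht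
    exact (interior_eqs hq (ht.1.trans hs) hS hP ⟨ht.1, hs⟩ hx).1
  · obtain ⟨s, hs, hS, hP⟩ := win t ht
    have hx' := Ioo_subset_Icc_self hx
    rw [(interior_eqs hq (ht.1.trans hs) hS hP ⟨ht.1, hs⟩ hx).2]
    rcases le_total x xs with a | a
    · rw [Rm_left he hq (mem t ht x hx') hx.1 (a.trans_lt hxs')]
      have := hC1 t ht x ⟨hx.1.le, a⟩
      rw [wj_succ U 0, wj_one, ← hP t ⟨ht.1.le, hs.le⟩ x hx'] at this
      exact this.trans (le_max_left _ _)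
    · obtain ⟨u, v, w⟩ := hC t ht x ⟨a, hx.2.le⟩
      exact (hB _ u a hx.2 _ _ v w).trans (le_max_right _ _)
  · have := htip.const_mul 2
    rw [mul_zero] at this
    refine this.congr fun t => ?_
    simp [lift, GW, wF, wj_zero, m1_left (x := 0) (by norm_num)]

end Crest.Agent.N207.S.Ga
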